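import Vale.Agent.Lib.P042.UB.Fejer.Kernel

set_option autoImplicit false

namespace Vale.Agent.P042.UB

/-- Indicator of `{1, …, N}`. -/
noncomputable def ind (N : ℕ) (x : ℤ) : ℝ := if x ∈ Finset.Icc (1 : ℤ) N then 1 else 0

/-- The smoothed indicator `b_x = ∑_j v(j) 1_{[N]}(x + D j)`. -/
noncomputable def bx (H N D : ℕ) (x : ℤ) : ℝ := ∑' j : ℤ, fw H j * ind N (x + D * j)

theorem ind_nonneg (N : ℕ) (x : ℤ) : 0 ≤ ind N x := by
  unfold ind; split_ifs <;> norm_num

theorem ind_le_one (N : ℕ) (x : ℤ) : ind N x ≤ 1 := by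
  unfold ind; split_ifs <;> norm_num

theorem bx_nonneg (H N D : ℕ) (x : ℤ) : 0 ≤ bx H N D x :=
  tsum_nonneg fun j => mul_nonneg (fw_nonneg H j) (ind_nonneg N _)

theorem summable_fw_mul (H : ℕ) (hH : 2 ≤ H) (c : ℤ → ℝ) (K : ℝ) (h0 : ∀ j, 0 ≤ c j)
    (hK : ∀ j, c j ≤ K) : Summable (fun j : ℤ => fw H j * c j) := by
  refine Summable.of_nonneg_of_le (fun j => mul_nonneg (fw_nonneg H j) (h0 j)) (fun j => ?_)
    ((summable_fw H (by omega)).mul_right K)
  exact mul_le_mul_of_nonneg_left (hK j) (fw_nonneg H j)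

theorem summable_bx (H N D : ℕ) (hH : 2 ≤ H) (x : ℤ) :
    Summable (fun j : ℤ => fw H j * ind N (x + D * j)) :=
  summable_fw_mul H hH _ 1 (fun _ => ind_nonneg N _) (fun _ => ind_le_one N _)

theorem bx_le_one (H N D : ℕ) (hH : 2 ≤ H) (x : ℤ) : bx H N D x ≤ 1 := by
  rw [← tsum_fw H hH]
  refine (summable_bx H N D hH x).tsum_le_tsum (fun j => ?_) (summable_fw H (by omega))
  exact mul_le_of_le_one_right (fw_nonneg H j) (ind_le_one N _)

theorem inv_rpow_telescope (j : ℕ) (hj : 1 ≤ j) :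
    1 / (((j : ℝ) + 1) * Real.sqrt (j + 1)) ≤
      2 * (1 / Real.sqrt j - 1 / Real.sqrt (j + 1)) := by
  have hj0 : (0 : ℝ) < j := by exact_mod_cast hj
  set a := Real.sqrt j with ha
  set b := Real.sqrt (j + 1) with hb
  have ha0 : 0 < a := Real.sqrt_pos.mpr hj0
  have hb0 : 0 < b := Real.sqrt_pos.mpr (by linarith)
  have hab : a ≤ b := Real.sqrt_le_sqrt (by linarith)
  have ha2 : a ^ 2 = j := Real.sq_sqrt hj0.le
  have hb2 : b ^ 2 = j + 1 := Real.sq_sqrt (by linarith)
  have h1 : b ^ 2 - a ^ 2 = 1 := by rw [ha2, hb2]; ring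
  rw [← hb2]
  have h2 : 1 / a - 1 / b = (b - a) / (a * b) := by field_simp
  have h3 : b - a = 1 / (b + a) := by
    field_simp
    nlinarith
  rw [h2, h3, div_div, mul_one_div, div_le_div_iff₀ (by positivity) (by positivity)]
  have : (b + a) * (a * b) ≤ 2 * b * (b * b) := by
    apply mul_le_mul _ _ (by positivity) (by positivity)
    · linarith
    · exact mul_le_mul_of_nonneg_right hab hb0.le
  nlinarith

/-- the one-sided finite bound -/
theorem sum_majorant_le (H N D : ℕ) (hH : 2 ≤ H) (hD : 1 ≤ D) (hDH : D * H ≤ N) (f : ℕ → ℝ)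
    (h1 : ∀ i, f i ≤ D * ((i : ℝ) + 1) / H)
    (h2 : ∀ i, f i ≤ H / ((i : ℝ) + 1) ^ 2 * Real.sqrt (N * D * ((i : ℝ) + 1))) (M : ℕ) :
    ∑ i ∈ Finset.range M, f i ≤ 3 * Real.sqrt ((N : ℝ) * D * H) := by
  have hH0 : (0 : ℝ) < H := by exact_mod_cast (by omega : 0 < H)
  have hD0 : (0 : ℝ) < D := by exact_mod_cast hD
  have hDHN : (D : ℝ) * H ≤ N := by exact_mod_cast hDH
  have hN0 : (0 : ℝ) < N := lt_of_lt_of_le (by positivity) hDHN
  set S := Real.sqrt ((N : ℝ) * D * H) with hS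
  have hS0 : 0 ≤ S := Real.sqrt_nonneg _
  have hDHS : (D : ℝ) * H ≤ S := by
    apply Real.le_sqrt_of_sq_le
    nlinarith [mul_nonneg (sub_nonneg.mpr hDHN) (mul_pos hD0 hH0).le]
  -- small indices
  have hsmall : ∀ M : ℕ, M ≤ H → ∑ i ∈ Finset.range M, f i ≤ D * M := by
    intro M hM
    have : ∀ i ∈ Finset.range M, f i ≤ D := by
      intro i hi
      rw [Finset.mem_range] at hi
      refine (h1 i).trans ?_
      rw [div_le_iff₀ hH0]
      have : ((i : ℝ) + 1) ≤ H := by exact_mod_cast (by omega : i + 1 ≤ H)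
      nlinarith
    refine (Finset.sum_le_sum this).trans ?_
    rw [Finset.sum_const, Finset.card_range, nsmul_eq_mul]
    linarith
  -- large indices
  have hlarge : ∀ M : ℕ, H ≤ M → ∑ i ∈ Finset.range M, f i ≤
      3 * S - 2 * (H * Real.sqrt (N * D)) * (1 / Real.sqrt M) := by
    intro M hM
    induction M, hM using Nat.le_induction with
    | base =>
      have h3 := hsmall H le_rfl
      have h4 : 2 * (H * Real.sqrt (N * D)) * (1 / Real.sqrt H) = 2 * S := by
        have hsH : Real.sqrt H * Real.sqrt H = H := Real.mul_self_sqrt hH0.le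
        have hsH0 : 0 < Real.sqrt H := Real.sqrt_pos.mpr hH0
        rw [hS, Real.sqrt_mul (by positivity) (H : ℝ)]
        field_simp
        nlinarith [Real.sqrt_nonneg ((N : ℝ) * D)]
      rw [h4]
      linarith
    | succ M hM ih =>
      rw [Finset.sum_range_succ]
      have hM1 : 1 ≤ M := by omega
      have hM0 : (0 : ℝ) < M := by exact_mod_cast hM1
      have ht := inv_rpow_telescope M hM1
      have h3 := h2 M
      have h4 : (H : ℝ) / ((M : ℝ) + 1) ^ 2 * Real.sqrt (N * D * ((M : ℝ) + 1)) =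
          H * Real.sqrt (N * D) * (1 / (((M : ℝ) + 1) * Real.sqrt (M + 1))) := by
        rw [Real.sqrt_mul (by positivity) ((M : ℝ) + 1)]
        have hs : Real.sqrt ((M : ℝ) + 1) * Real.sqrt ((M : ℝ) + 1) = M + 1 :=
          Real.mul_self_sqrt (by positivity)
        have hs0 : 0 < Real.sqrt ((M : ℝ) + 1) := Real.sqrt_pos.mpr (by positivity)
        have hs2 : Real.sqrt ((M : ℝ) + 1) ^ 2 = M + 1 := by rw [sq]; exact hs
        field_simp
        rw [hs2]
      have h5 : f M ≤ H * Real.sqrt (N * D) *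
          (2 * (1 / Real.sqrt M - 1 / Real.sqrt (M + 1))) := by
        refine h3.trans ?_
        rw [h4]
        exact mul_le_mul_of_nonneg_left ht (by positivity)
      push_cast
      have h6 : H * Real.sqrt (N * D) * (2 * (1 / Real.sqrt M - 1 / Real.sqrt (M + 1))) =
          2 * (H * Real.sqrt (N * D)) * (1 / Real.sqrt M) -
          2 * (H * Real.sqrt (N * D)) * (1 / Real.sqrt (M + 1)) := by ring
      linarith
  rcases le_total M H with hM | hM
  · refine (hsmall M hM).trans ?_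
    have : (D : ℝ) * M ≤ D * H := mul_le_mul_of_nonneg_left (by exact_mod_cast hM) hD0.le
    linarith
  · refine (hlarge M hM).trans ?_
    have : 0 ≤ 2 * (H * Real.sqrt ((N : ℝ) * D)) * (1 / Real.sqrt M) := by positivity
    linarith

theorem fw_mul_le_majorant (H N D : ℕ) (hH : 2 ≤ H) (hD : 1 ≤ D) (c : ℤ → ℝ)
    (hc0 : ∀ j, 0 ≤ c j) (hcD : ∀ j : ℤ, c j ≤ D * |(j : ℝ)|) (hcN : ∀ j, c j ≤ N)
    (j : ℤ) (i : ℕ) (hj : |(j : ℝ)| = (i : ℝ) + 1) :
    fw H j * c j ≤ D * ((i : ℝ) + 1) / H ∧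
      fw H j * c j ≤ H / ((i : ℝ) + 1) ^ 2 * Real.sqrt (N * D * ((i : ℝ) + 1)) := by
  have hH0 : (0 : ℝ) < H := by exact_mod_cast (by omega : 0 < H)
  have hD0 : (0 : ℝ) < D := by exact_mod_cast hD
  have hj0 : j ≠ 0 := by
    rintro rfl
    simp at hj
    have : (0 : ℝ) ≤ i := Nat.cast_nonneg i
    linarith
  have hc := hcD j
  rw [hj] at hc
  constructor
  · have h1 := mul_le_mul (fw_le_inv H j) hc (hc0 j) (by positivity)
    refine h1.trans (le_of_eq ?_)
    ring
  · have hsq : (j : ℝ) ^ 2 = ((i : ℝ) + 1) ^ 2 := by rw [← sq_abs, hj]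
    have h2 := fw_le_div_sq H j hj0
    rw [hsq] at h2
    have h3 : c j ≤ Real.sqrt (N * D * ((i : ℝ) + 1)) := by
      apply Real.le_sqrt_of_sq_le
      have := mul_le_mul (hcN j) hc (hc0 j) (Nat.cast_nonneg N)
      calc c j ^ 2 = c j * c j := sq _
        _ ≤ _ := this
        _ = _ := by ring
    exact mul_le_mul h2 h3 (hc0 j) (by positivity)

theorem tsum_int_le (g : ℤ → ℝ) (hg0 : ∀ j, 0 ≤ g j) (hs : Summable g) (K : ℝ)
    (h0 : g 0 = 0) (hpos : ∀ M : ℕ, ∑ i ∈ Finset.range M, g ((i : ℤ) + 1) ≤ K)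
    (hneg : ∀ M : ℕ, ∑ i ∈ Finset.range M, g (-((i : ℤ) + 1)) ≤ K) :
    ∑' j : ℤ, g j ≤ 2 * K := by
  have hs1 : Summable (fun n : ℕ => g (n : ℤ)) := hs.comp_injective Nat.cast_injective
  have hinj : Function.Injective (fun n : ℕ => -((n : ℤ) + 1)) := by
    intro a b hab
    have h : -((a : ℤ) + 1) = -((b : ℤ) + 1) := hab
    omega
  have hs2 : Summable (fun n : ℕ => g (-((n : ℤ) + 1))) := hs.comp_injective hinj
  have hK : 0 ≤ K := by simpa using hpos 0
  have hb1 : ∑' n : ℕ, g (n : ℤ) ≤ K := by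
    refine Real.tsum_le_of_sum_range_le (fun n => hg0 _) fun M => ?_
    cases M with
    | zero => simpa using hK
    | succ M =>
      rw [Finset.sum_range_succ']
      have := hpos M
      have h1 : g ((0 : ℕ) : ℤ) = 0 := h0
      rw [h1, add_zero]
      exact this
  have hb2 : ∑' n : ℕ, g (-((n : ℤ) + 1)) ≤ K :=
    Real.tsum_le_of_sum_range_le (fun n => hg0 _) hneg
  rw [tsum_of_nat_of_neg_add_one hs1 hs2]
  linarith

/-- The weighted sum of a count bounded by `min(D|j|, N)`. -/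
theorem tsum_fw_mul_le (H N D : ℕ) (hH : 2 ≤ H) (hD : 1 ≤ D) (hDH : D * H ≤ N) (c : ℤ → ℝ)
    (hc0 : ∀ j, 0 ≤ c j) (hcD : ∀ j : ℤ, c j ≤ D * |(j : ℝ)|) (hcN : ∀ j, c j ≤ N) :
    ∑' j : ℤ, fw H j * c j ≤ 6 * Real.sqrt ((N : ℝ) * D * H) := by
  have hsum := summable_fw_mul H hH c N hc0 hcN
  have hm := fw_mul_le_majorant H N D hH hD c hc0 hcD hcN
  have h0 : fw H 0 * c 0 = 0 := by
    have : c 0 = 0 := by
      refine le_antisymm ?_ (hc0 _)
      simpa using hcD 0
    rw [this, mul_zero]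
  have key := tsum_int_le (fun j : ℤ => fw H j * c j)
    (fun j => mul_nonneg (fw_nonneg H j) (hc0 j)) hsum (3 * Real.sqrt ((N : ℝ) * D * H)) h0
    (by
      intro M
      have hj : ∀ i : ℕ, |((((i : ℤ) + 1 : ℤ)) : ℝ)| = (i : ℝ) + 1 := by
        intro i
        push_cast
        rw [abs_of_nonneg (by positivity)]
      exact sum_majorant_le H N D hH hD hDH
        (fun n : ℕ => fw H ((n : ℤ) + 1) * c ((n : ℤ) + 1))
        (fun i => (hm _ i (hj i)).1) (fun i => (hm _ i (hj i)).2) M)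
    (by
      intro M
      have hj : ∀ i : ℕ, |(((-((i : ℤ) + 1) : ℤ)) : ℝ)| = (i : ℝ) + 1 := by
        intro i
        push_cast
        rw [abs_neg, abs_of_nonneg (by positivity)]
      exact sum_majorant_le H N D hH hD hDH
        (fun n : ℕ => fw H (-((n : ℤ) + 1)) * c (-((n : ℤ) + 1)))
        (fun i => (hm _ i (hj i)).1) (fun i => (hm _ i (hj i)).2) M)
  refine key.trans (le_of_eq ?_)
  ring

/-- count of the points leaving `[1, N]` -/
theorem count_in_le (N D : ℕ) (hD : 1 ≤ D) (j : ℤ) :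
    (∑ x ∈ Finset.Icc (1 : ℤ) N, (1 - ind N (x + D * j)) ≤ D * |(j : ℝ)|) ∧
    (∑ x ∈ Finset.Icc (1 : ℤ) N, (1 - ind N (x + D * j)) ≤ N) := by
  have hcard : ∀ T : Finset ℤ, (∀ x ∈ Finset.Icc (1 : ℤ) N, x ∉ T → ind N (x + D * j) = 1) →
      ∑ x ∈ Finset.Icc (1 : ℤ) N, (1 - ind N (x + D * j)) ≤ T.card := by
    intro T hT
    have h1 : ∀ x ∈ Finset.Icc (1 : ℤ) N, (1 - ind N (x + D * j)) ≤ if x ∈ T then 1 else 0 := by
      intro x hx
      split_ifs with h
      · have := ind_nonneg N (x + D * j); linarith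
      · rw [hT x hx h]; norm_num
    refine (Finset.sum_le_sum h1).trans ?_
    rw [← Finset.sum_filter, Finset.sum_const, nsmul_eq_mul, mul_one]
    have : ((Finset.Icc (1 : ℤ) N).filter (fun x => x ∈ T)).card ≤ T.card :=
      Finset.card_le_card (fun x hx => (Finset.mem_filter.mp hx).2)
    exact_mod_cast this
  constructor
  · rcases le_total 0 j with hj | hj
    · have h1 := hcard (Finset.Ioc ((N : ℤ) - D * j) N) (by
        intro x hx hx'
        rw [Finset.mem_Icc] at hx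
        rw [Finset.mem_Ioc, not_and_or, not_lt, not_le] at hx'
        have hDj : (0 : ℤ) ≤ D * j := by positivity
        have : x + D * j ∈ Finset.Icc (1 : ℤ) N := by
          rw [Finset.mem_Icc]; omega
        simp only [ind, if_pos this])
      refine h1.trans (le_of_eq ?_)
      rw [Int.card_Ioc, show (N : ℤ) - (N - D * j) = D * j by ring, abs_of_nonneg (by
        exact_mod_cast hj)]
      have hDj : (0 : ℤ) ≤ D * j := by positivity
      have h2 : (((D * j : ℤ).toNat : ℤ) : ℝ) = ((D * j : ℤ) : ℝ) := by rw [Int.toNat_of_nonneg hDj]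
      push_cast at h2 ⊢
      exact h2
    · have h1 := hcard (Finset.Ico (1 : ℤ) (1 - D * j)) (by
        intro x hx hx'
        rw [Finset.mem_Icc] at hx
        rw [Finset.mem_Ico, not_and_or, not_lt, not_le] at hx'
        have hDj : (D : ℤ) * j ≤ 0 := mul_nonpos_of_nonneg_of_nonpos (by positivity) hj
        have : x + D * j ∈ Finset.Icc (1 : ℤ) N := by
          rw [Finset.mem_Icc]; omega
        simp only [ind, if_pos this])
      refine h1.trans (le_of_eq ?_)
      rw [Int.card_Ico, show (1 : ℤ) - D * j - 1 = D * (-j) by ring, abs_of_nonpos (by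
        exact_mod_cast hj)]
      have hDj : (0 : ℤ) ≤ D * (-j) := mul_nonneg (by positivity) (by omega)
      have h2 : (((D * (-j) : ℤ).toNat : ℤ) : ℝ) = ((D * (-j) : ℤ) : ℝ) := by
        rw [Int.toNat_of_nonneg hDj]
      push_cast at h2 ⊢
      exact h2
  · have h1 := hcard (Finset.Icc (1 : ℤ) N) (fun x hx hx' => absurd hx hx')
    refine h1.trans (le_of_eq ?_)
    simp

/-- count of the points entering `[1, N]` -/
theorem count_out_le (N D : ℕ) (hD : 1 ≤ D) (j : ℤ) (F : Finset ℤ)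
    (hF : ∀ x ∈ F, x ∉ Finset.Icc (1 : ℤ) N) :
    (∑ x ∈ F, ind N (x + D * j) ≤ D * |(j : ℝ)|) ∧ (∑ x ∈ F, ind N (x + D * j) ≤ N) := by
  have hcard : ∀ T : Finset ℤ, (∀ x ∈ F, x ∉ T → x + D * j ∉ Finset.Icc (1 : ℤ) N) →
      ∑ x ∈ F, ind N (x + D * j) ≤ T.card := by
    intro T hT
    have h1 : ∀ x ∈ F, ind N (x + D * j) ≤ if x ∈ T then 1 else 0 := by
      intro x hx
      split_ifs with h
      · exact ind_le_one N _
      · simp only [ind, if_neg (hT x hx h)]; norm_num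
    refine (Finset.sum_le_sum h1).trans ?_
    rw [← Finset.sum_filter, Finset.sum_const, nsmul_eq_mul, mul_one]
    have : (F.filter (fun x => x ∈ T)).card ≤ T.card :=
      Finset.card_le_card (fun x hx => (Finset.mem_filter.mp hx).2)
    exact_mod_cast this
  constructor
  · rcases le_total 0 j with hj | hj
    · have h1 := hcard (Finset.Ioc (-(D * j) : ℤ) 0) (by
        intro x hx hx' hmem
        have hx1 := hF x hx
        rw [Finset.mem_Icc] at hx1 hmem
        rw [Finset.mem_Ioc, not_and_or, not_lt, not_le] at hx'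
        have hDj : (0 : ℤ) ≤ D * j := by positivity
        omega)
      refine h1.trans (le_of_eq ?_)
      rw [Int.card_Ioc, show (0 : ℤ) - (-(D * j)) = D * j by ring, abs_of_nonneg (by
        exact_mod_cast hj)]
      have hDj : (0 : ℤ) ≤ D * j := by positivity
      have h2 : (((D * j : ℤ).toNat : ℤ) : ℝ) = ((D * j : ℤ) : ℝ) := by rw [Int.toNat_of_nonneg hDj]
      push_cast at h2 ⊢
      exact h2
    · have h1 := hcard (Finset.Ioc (N : ℤ) (N - D * j)) (by
        intro x hx hx' hmem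
        have hx1 := hF x hx
        rw [Finset.mem_Icc] at hx1 hmem
        rw [Finset.mem_Ioc, not_and_or, not_lt, not_le] at hx'
        have hDj : (D : ℤ) * j ≤ 0 := mul_nonpos_of_nonneg_of_nonpos (by positivity) hj
        omega)
      refine h1.trans (le_of_eq ?_)
      rw [Int.card_Ioc, show (N : ℤ) - D * j - N = D * (-j) by ring, abs_of_nonpos (by
        exact_mod_cast hj)]
      have hDj : (0 : ℤ) ≤ D * (-j) := mul_nonneg (by positivity) (by omega)
      have h2 : (((D * (-j) : ℤ).toNat : ℤ) : ℝ) = ((D * (-j) : ℤ) : ℝ) := by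
        rw [Int.toNat_of_nonneg hDj]
      push_cast at h2 ⊢
      exact h2
  · have h1 := hcard (Finset.Icc (1 - D * j : ℤ) (N - D * j)) (by
        intro x hx hx' hmem
        rw [Finset.mem_Icc] at hmem hx'
        omega)
    refine h1.trans (le_of_eq ?_)
    rw [Int.card_Icc, show (N : ℤ) - D * j + 1 - (1 - D * j) = N by ring]
    simp

/-- Boundary effects inside.

PROOF. `∑_{x ∈ [1,N]} (1 - b_x) = ∑_j v(j) #{x ∈ [1,N] : x + D j ∉ [1,N]} =
∑_j v(j) min(D|j|, N)`; for `|j| ≤ H` use `v(j) ≤ 1/H`: total `≤ D (H+1) ≤ 2 D H`; for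
`|j| > H` use `min(D|j|, N) ≤ √(N D |j|)` and `v(j) ≤ H/j²`: total
`≤ 2 √(N D) H ∑_{j > H} j^{-3/2} ≤ 4 √(N D H)`; and `D H ≤ √(N D H)`. -/
theorem sum_one_sub_bx (H N D : ℕ) (hH : 2 ≤ H) (hD : 1 ≤ D) (hDH : D * H ≤ N) :
    ∑ x ∈ Finset.Icc (1 : ℤ) N, (1 - bx H N D x) ≤ 20 * Real.sqrt ((N : ℝ) * D * H) := by
  have h1 : ∀ x : ℤ, 1 - bx H N D x = ∑' j : ℤ, fw H j * (1 - ind N (x + D * j)) := by
    intro x
    have h0 : 1 - bx H N D x = (∑' j : ℤ, fw H j) - ∑' j : ℤ, fw H j * ind N (x + D * j) := by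
      rw [tsum_fw H hH, bx]
    rw [h0, ← (summable_fw H (by omega)).tsum_sub (summable_bx H N D hH x)]
    exact tsum_congr fun j => by ring
  have hs : ∀ x : ℤ, Summable (fun j : ℤ => fw H j * (1 - ind N (x + D * j))) := fun x =>
    summable_fw_mul H hH _ 1 (fun j => by have := ind_le_one N (x + D * j); linarith)
      (fun j => by have := ind_nonneg N (x + D * j); linarith)
  have h2 : ∑ x ∈ Finset.Icc (1 : ℤ) N, (1 - bx H N D x) =
      ∑' j : ℤ, fw H j * ∑ x ∈ Finset.Icc (1 : ℤ) N, (1 - ind N (x + D * j)) := by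
    simp only [h1]
    rw [← Summable.tsum_finsetSum (fun x _ => hs x)]
    exact tsum_congr fun j => by rw [Finset.mul_sum]
  rw [h2]
  have h3 := tsum_fw_mul_le H N D hH hD hDH
    (fun j => ∑ x ∈ Finset.Icc (1 : ℤ) N, (1 - ind N (x + D * j)))
    (fun j => Finset.sum_nonneg fun x _ => by have := ind_le_one N (x + D * j); linarith)
    (fun j => (count_in_le N D hD j).1) (fun j => (count_in_le N D hD j).2)
  have h4 : 0 ≤ Real.sqrt ((N : ℝ) * D * H) := Real.sqrt_nonneg _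
  linarith

/-- Boundary effects outside: same computation. -/
theorem sum_bx_outside (H N D : ℕ) (hH : 2 ≤ H) (hD : 1 ≤ D) (hDH : D * H ≤ N) :
    Summable (fun x : ℤ => if x ∈ Finset.Icc (1 : ℤ) N then 0 else bx H N D x) ∧
      ∑' x : ℤ, (if x ∈ Finset.Icc (1 : ℤ) N then 0 else bx H N D x) ≤
        20 * Real.sqrt ((N : ℝ) * D * H) := by
  have h4 : 0 ≤ Real.sqrt ((N : ℝ) * D * H) := Real.sqrt_nonneg _
  have hnn : ∀ x : ℤ, 0 ≤ (if x ∈ Finset.Icc (1 : ℤ) N then 0 else bx H N D x) := by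
    intro x
    split_ifs
    · exact le_rfl
    · exact bx_nonneg H N D x
  have hfin : ∀ F : Finset ℤ, ∑ x ∈ F, (if x ∈ Finset.Icc (1 : ℤ) N then 0 else bx H N D x) ≤
      20 * Real.sqrt ((N : ℝ) * D * H) := by
    intro F
    have h1 : ∑ x ∈ F, (if x ∈ Finset.Icc (1 : ℤ) N then 0 else bx H N D x) =
        ∑ x ∈ F.filter (fun x => x ∉ Finset.Icc (1 : ℤ) N), bx H N D x := by
      rw [Finset.sum_filter]
      refine Finset.sum_congr rfl fun x _ => ?_
      by_cases h : x ∈ Finset.Icc (1 : ℤ) N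
      · rw [if_pos h, if_neg (not_not.mpr h)]
      · rw [if_neg h, if_pos h]
    have h2 : ∑ x ∈ F.filter (fun x => x ∉ Finset.Icc (1 : ℤ) N), bx H N D x =
        ∑' j : ℤ, fw H j * ∑ x ∈ F.filter (fun x => x ∉ Finset.Icc (1 : ℤ) N),
          ind N (x + D * j) := by
      simp only [bx]
      rw [← Summable.tsum_finsetSum (fun x _ => summable_bx H N D hH x)]
      exact tsum_congr fun j => by rw [Finset.mul_sum]
    have hF : ∀ x ∈ F.filter (fun x => x ∉ Finset.Icc (1 : ℤ) N), x ∉ Finset.Icc (1 : ℤ) N :=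
      fun x hx => (Finset.mem_filter.mp hx).2
    have h3 := tsum_fw_mul_le H N D hH hD hDH
      (fun j => ∑ x ∈ F.filter (fun x => x ∉ Finset.Icc (1 : ℤ) N), ind N (x + D * j))
      (fun j => Finset.sum_nonneg fun x _ => ind_nonneg N _)
      (fun j => (count_out_le N D hD j _ hF).1) (fun j => (count_out_le N D hD j _ hF).2)
    rw [h1, h2]
    linarith
  exact ⟨summable_of_sum_le hnn hfin, Real.tsum_le_of_sum_le hnn hfin⟩

end Vale.Agent.P042.UB
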