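import Vale.Agent.Lib.P042.UB.Defs

set_option autoImplicit false

namespace Vale.Agent.P042.UB

/-!
Facts on the weights `fw H j = sinc²(π j/H)/H`, the Fourier coefficients of the 1-periodic
triangle function `φ ↦ max 0 (1 - H nint φ)`.
-/

open MeasureTheory Set Filter Topology

theorem fw_nonneg (H : ℕ) (j : ℤ) : 0 ≤ fw H j := by
  unfold fw
  positivity

theorem fw_neg (H : ℕ) (j : ℤ) : fw H (-j) = fw H j := by
  unfold fw
  have : Real.pi * ((-j : ℤ) : ℝ) / H = -(Real.pi * j / H) := by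
    push_cast
    ring
  rw [this, Real.sinc_neg]

theorem fw_le_inv (H : ℕ) (j : ℤ) : fw H j ≤ 1 / H := by
  unfold fw
  refine div_le_div_of_nonneg_right ?_ (Nat.cast_nonneg _)
  have h1 := Real.abs_sinc_le_one (Real.pi * j / H)
  rw [← sq_abs]
  exact pow_le_one₀ (abs_nonneg _) h1

theorem fw_of_ne_zero (H : ℕ) (hH : 1 ≤ H) (j : ℤ) (hj : j ≠ 0) :
    fw H j = H * Real.sin (Real.pi * j / H) ^ 2 / (Real.pi ^ 2 * (j : ℝ) ^ 2) := by
  have hH0 : (H : ℝ) ≠ 0 := by
    have : 0 < H := hH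
    exact_mod_cast this.ne'
  have hj0 : (j : ℝ) ≠ 0 := by exact_mod_cast hj
  have hpi : Real.pi ≠ 0 := Real.pi_ne_zero
  unfold fw
  rw [Real.sinc_of_ne_zero (div_ne_zero (mul_ne_zero hpi hj0) hH0)]
  field_simp

theorem fw_le_div_sq (H : ℕ) (j : ℤ) (hj : j ≠ 0) : fw H j ≤ H / (j : ℝ) ^ 2 := by
  rcases Nat.eq_zero_or_pos H with rfl | hH
  · unfold fw
    simp
  rw [fw_of_ne_zero H hH j hj]
  have hj0 : (0 : ℝ) < (j : ℝ) ^ 2 := by
    have : (j : ℝ) ≠ 0 := by exact_mod_cast hj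
    positivity
  have hpi : 1 ≤ Real.pi ^ 2 := by
    have := Real.pi_gt_three
    nlinarith
  have hs : Real.sin (Real.pi * j / H) ^ 2 ≤ 1 := by
    rw [← sq_abs]
    exact pow_le_one₀ (abs_nonneg _) (Real.abs_sin_le_one _)
  have hs0 : 0 ≤ Real.sin (Real.pi * j / H) ^ 2 := sq_nonneg _
  have hH0 : (0 : ℝ) ≤ H := Nat.cast_nonneg _
  refine div_le_div₀ hH0 ?_ hj0 ?_
  · nlinarith
  · nlinarith

theorem summable_fw (H : ℕ) (hH : 1 ≤ H) : Summable (fw H) := by
  have h : Summable fun n : ℤ => (H : ℝ) * (1 / (n : ℝ) ^ 2) :=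
    (Real.summable_one_div_int_pow.2 (by norm_num)).mul_left _
  refine Summable.of_norm_bounded_eventually h ?_
  filter_upwards [(Set.finite_singleton (0 : ℤ)).compl_mem_cofinite] with n hn
  have hn' : n ≠ 0 := by simpa using hn
  rw [Real.norm_of_nonneg (fw_nonneg H n), mul_one_div]
  exact fw_le_div_sq H n hn'

/-! ### The Fourier series -/

/-- The triangle function on the circle. -/
noncomputable def fkTri (H : ℕ) : C(UnitAddCircle, ℂ) :=
  ⟨fun x => ((max 0 (1 - H * ‖x‖) : ℝ) : ℂ), by fun_prop⟩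

theorem fk_tri_coe (H : ℕ) (φ : ℝ) :
    fkTri H (φ : UnitAddCircle) = ((max 0 (1 - H * nint φ) : ℝ) : ℂ) := by
  unfold fkTri nint
  rw [← UnitAddCircle.norm_eq]
  rfl

theorem fk_fourier_eq_e (j : ℤ) (φ : ℝ) :
    (fourier j (φ : UnitAddCircle) : ℂ) = e ((j : ℝ) * φ) := by
  rw [fourier_coe_apply, e]
  congr 1
  push_cast
  ring

theorem fk_nint_of_mem {t : ℝ} (h0 : 0 ≤ t) (h1 : t ≤ 1 / 2) : nint t = t := by
  unfold nint
  rw [abs_sub_round_eq_min, Int.fract_eq_self.2 ⟨h0, by linarith⟩]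
  exact min_eq_left (by linarith)

theorem fk_nint_neg (t : ℝ) : nint (-t) = nint t := by
  unfold nint
  have h1 : ‖((-t : ℝ) : UnitAddCircle)‖ = ‖(t : UnitAddCircle)‖ := by
    rw [AddCircle.coe_neg, norm_neg]
  rwa [UnitAddCircle.norm_eq, UnitAddCircle.norm_eq] at h1

theorem fk_e_add_e_neg (t : ℝ) : e t + e (-t) = ((2 * Real.cos (2 * Real.pi * t) : ℝ) : ℂ) := by
  unfold e
  have h1 : (((2 * Real.pi * -t : ℝ) : ℂ)) * Complex.I =
      -(((2 * Real.pi * t : ℝ) : ℂ)) * Complex.I := by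
    push_cast
    ring
  rw [h1]
  have h2 := Complex.two_cos (((2 * Real.pi * t : ℝ) : ℂ))
  rw [← h2]
  push_cast
  ring

/-- The elementary integral. -/
theorem fk_integral_tri (H : ℕ) (hH : 2 ≤ H) (j : ℤ) :
    ∫ t in (0 : ℝ)..(1 / H : ℝ), (1 - H * t) * (2 * Real.cos (2 * Real.pi * (j * t))) =
      fw H j := by
  have hH0 : (0 : ℝ) < H := by
    have : 0 < H := by omega
    exact_mod_cast this
  rcases eq_or_ne j 0 with rfl | hj
  · have h1 : ∀ t ∈ uIcc (0 : ℝ) (1 / H),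
        HasDerivAt (fun t : ℝ => 2 * t - H * t ^ 2)
          ((1 - H * t) * (2 * Real.cos (2 * Real.pi * (((0 : ℤ) : ℝ) * t)))) t := by
      intro t _
      have h2 := ((hasDerivAt_id t).const_mul 2).sub ((hasDerivAt_pow 2 t).const_mul (H : ℝ))
      refine h2.congr_deriv ?_
      simp
      ring
    rw [intervalIntegral.integral_eq_sub_of_hasDerivAt h1]
    · unfold fw
      simp
      field_simp
      norm_num
    · exact Continuous.intervalIntegrable (by fun_prop) _ _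
  · have hj0 : (j : ℝ) ≠ 0 := by exact_mod_cast hj
    have hpi : Real.pi ≠ 0 := Real.pi_ne_zero
    have h1 : ∀ t ∈ uIcc (0 : ℝ) (1 / H),
        HasDerivAt (fun t : ℝ => (1 - H * t) * (Real.sin (2 * Real.pi * (j * t)) / (Real.pi * j))
          - H * Real.cos (2 * Real.pi * (j * t)) / (2 * (Real.pi * j) ^ 2))
          ((1 - H * t) * (2 * Real.cos (2 * Real.pi * (j * t)))) t := by
      intro t _
      have hl : HasDerivAt (fun t : ℝ => 2 * Real.pi * (j * t)) (2 * Real.pi * j) t := by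
        have := ((hasDerivAt_id t).const_mul (j : ℝ)).const_mul (2 * Real.pi)
        refine this.congr_deriv ?_
        ring
      have ha : HasDerivAt (fun t : ℝ => 1 - H * t) (-(H : ℝ)) t := by
        have := ((hasDerivAt_id t).const_mul (H : ℝ)).const_sub 1
        refine this.congr_deriv ?_
        ring
      have h2 := (ha.mul (hl.sin.div_const (Real.pi * j))).sub
        ((hl.cos.const_mul (H : ℝ)).div_const (2 * (Real.pi * j) ^ 2))
      refine h2.congr_deriv ?_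
      field_simp
      ring
    rw [intervalIntegral.integral_eq_sub_of_hasDerivAt h1
      (Continuous.intervalIntegrable (by fun_prop) _ _), fw_of_ne_zero H (by omega) j hj]
    have h3 : Real.cos (2 * Real.pi * (j * (1 / H))) =
        1 - 2 * Real.sin (Real.pi * j / H) ^ 2 := by
      have h4 : 2 * Real.pi * (j * (1 / H)) = 2 * (Real.pi * j / H) := by ring
      rw [h4, Real.cos_two_mul]
      have := Real.sin_sq_add_cos_sq (Real.pi * j / H)
      linarith
    simp only [mul_zero, Real.sin_zero, Real.cos_zero, zero_div, sub_zero, zero_sub, mul_one]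
    rw [h3]
    field_simp
    ring

theorem fk_fourierCoeff_tri (H : ℕ) (hH : 2 ≤ H) (j : ℤ) :
    fourierCoeff (fkTri H) j = (fw H j : ℂ) := by
  have hH0 : (0 : ℝ) < H := by
    have : 0 < H := by omega
    exact_mod_cast this
  have hHinv : (1 : ℝ) / H ≤ 1 / 2 := by
    apply one_div_le_one_div_of_le (by norm_num)
    exact_mod_cast hH
  have hHinv0 : (0 : ℝ) < 1 / H := by positivity
  rw [fourierCoeff_eq_intervalIntegral _ _ (-(1 / 2 : ℝ))]
  have h0 : (-(1 / 2 : ℝ)) + 1 = 1 / 2 := by norm_num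
  rw [h0]
  set g : ℝ → ℂ := fun x => e (-((j : ℝ) * x)) * ((max 0 (1 - H * nint x) : ℝ) : ℂ) with hg
  have h1 : (fun x : ℝ => (fourier (-j) (x : UnitAddCircle) : ℂ) • fkTri H (x : UnitAddCircle)) =
      g := by
    funext x
    rw [fk_fourier_eq_e, fk_tri_coe, smul_eq_mul]
    simp only [hg]
    congr 2
    push_cast
    ring
  have hgc : Continuous g := by
    rw [← h1]
    exact ((fourier (-j)).continuous.comp (AddCircle.continuous_mk' 1)).smul
      ((fkTri H).continuous.comp (AddCircle.continuous_mk' 1))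
  have hint : ∀ a b : ℝ, IntervalIntegrable g volume a b := fun a b => hgc.intervalIntegrable a b
  rw [h1, ← intervalIntegral.integral_add_adjacent_intervals (hint _ 0) (hint 0 _)]
  have h2 : ∫ x in (-(1 / 2 : ℝ))..0, g x = ∫ x in (0 : ℝ)..(1 / 2), g (-x) := by
    rw [intervalIntegral.integral_comp_neg]
    simp
  have hneg : IntervalIntegrable (fun x => g (-x)) volume 0 (1 / 2) :=
    (hgc.comp continuous_neg).intervalIntegrable _ _
  rw [h2, ← intervalIntegral.integral_add hneg (hint _ _)]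
  have h3 : ∫ x in (0 : ℝ)..(1 / 2), (g (-x) + g x) = ∫ x in (0 : ℝ)..(1 / 2),
      (((max 0 (1 - H * x)) * (2 * Real.cos (2 * Real.pi * (j * x))) : ℝ) : ℂ) := by
    refine intervalIntegral.integral_congr fun x hx => ?_
    rw [uIcc_of_le (by norm_num)] at hx
    have h4 : nint x = x := fk_nint_of_mem hx.1 hx.2
    simp only [hg]
    rw [fk_nint_neg, h4, ← add_mul]
    have h5 := fk_e_add_e_neg ((j : ℝ) * x)
    have h6 : -((j : ℝ) * -x) = (j : ℝ) * x := by ring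
    rw [h6, h5]
    push_cast
    ring
  rw [h3, intervalIntegral.integral_ofReal]
  have hc : Continuous fun x : ℝ =>
      (max 0 (1 - H * x)) * (2 * Real.cos (2 * Real.pi * (j * x))) := by fun_prop
  rw [← intervalIntegral.integral_add_adjacent_intervals (b := 1 / (H : ℝ))
    (hc.intervalIntegrable _ _) (hc.intervalIntegrable _ _)]
  have h7 : ∫ x in (1 / (H : ℝ))..(1 / 2),
      (max 0 (1 - H * x)) * (2 * Real.cos (2 * Real.pi * (j * x))) = 0 := by
    have h8 : ∫ x in (1 / (H : ℝ))..(1 / 2),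
        (max 0 (1 - H * x)) * (2 * Real.cos (2 * Real.pi * (j * x))) =
        ∫ x in (1 / (H : ℝ))..(1 / 2), (0 : ℝ) := by
      refine intervalIntegral.integral_congr fun x hx => ?_
      rw [uIcc_of_le hHinv] at hx
      have h9 : 1 - H * x ≤ 0 := by
        have := hx.1
        rw [div_le_iff₀ hH0] at this
        linarith
      simp only [max_eq_left h9, zero_mul]
    rw [h8, intervalIntegral.integral_zero]
  have h10 : ∫ x in (0 : ℝ)..(1 / (H : ℝ)),
      (max 0 (1 - H * x)) * (2 * Real.cos (2 * Real.pi * (j * x))) = fw H j := by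
    rw [← fk_integral_tri H hH j]
    refine intervalIntegral.integral_congr fun x hx => ?_
    rw [uIcc_of_le hHinv0.le] at hx
    have h9 : 0 ≤ 1 - H * x := by
      have := hx.2
      rw [le_div_iff₀ hH0] at this
      linarith
    simp only [max_eq_right h9]
  rw [h7, h10]
  simp

/-- The Fourier series of the triangle function (valid for `H ≥ 2`).

PROOF. The function `Φ(φ) = max 0 (1 - H nint φ)` is continuous and 1-periodic with Fourier
coefficients `∫_{-1/H}^{1/H} (1 - H|t|) e(-j t) dt = sinc²(π j/H)/H`, summable. Use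
`hasSum_fourier_series_of_summable`/`has_pointwise_sum_fourier_series_of_summable` for
`C(AddCircle 1, ℂ)`. -/
theorem hasSum_fw_e (H : ℕ) (hH : 2 ≤ H) (φ : ℝ) :
    HasSum (fun j : ℤ => (fw H j : ℂ) * e ((j : ℝ) * φ)) ((max 0 (1 - H * nint φ) : ℝ) : ℂ) := by
  have hs : Summable (fourierCoeff (fkTri H)) := by
    have h1 : fourierCoeff (fkTri H) = fun j => ((fw H j : ℝ) : ℂ) :=
      funext fun j => fk_fourierCoeff_tri H hH j
    rw [h1]
    exact Complex.summable_ofReal.2 (summable_fw H (by omega))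
  have h2 := has_pointwise_sum_fourier_series_of_summable hs (φ : UnitAddCircle)
  rw [fk_tri_coe] at h2
  simpa only [fk_fourierCoeff_tri H hH, fk_fourier_eq_e, smul_eq_mul] using h2

theorem fk_nint_zero : nint 0 = 0 := by simp [nint]

theorem hasSum_fw (H : ℕ) (hH : 2 ≤ H) : HasSum (fw H) 1 := by
  have h := hasSum_fw_e H hH 0
  rw [fk_nint_zero] at h
  simp only [mul_zero, e_zero, mul_one, sub_zero] at h
  rw [max_eq_right zero_le_one] at h
  exact Complex.hasSum_ofReal.1 h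

theorem tsum_fw (H : ℕ) (hH : 2 ≤ H) : ∑' j : ℤ, fw H j = 1 := (hasSum_fw H hH).tsum_eq

/-! ### Equidistribution -/

theorem fk_inv_le_nint {a q : ℕ} (ha : 0 < a) (haq : a < q) : 1 / (q : ℝ) ≤ nint ((a : ℝ) / q) := by
  have hq : (0 : ℝ) < q := by
    have : 0 < q := by omega
    exact_mod_cast this
  unfold nint
  set z := round ((a : ℝ) / q) with hz
  have h1 : (a : ℝ) / q - z = (((a : ℤ) - q * z : ℤ) : ℝ) / q := by
    push_cast
    field_simp
  rw [h1, abs_div, abs_of_pos hq]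
  refine div_le_div_of_nonneg_right ?_ hq.le
  have h2 : (a : ℤ) - q * z ≠ 0 := by
    intro h
    have h3 : (q : ℤ) ∣ (a : ℤ) := ⟨z, by linarith⟩
    have h4 : q ∣ a := by exact_mod_cast h3
    exact absurd (Nat.le_of_dvd ha h4) (by omega)
  have h5 : 1 ≤ |(a : ℤ) - q * z| := Int.one_le_abs h2
  rw [← Int.cast_abs]
  exact_mod_cast h5

theorem fk_e_nat_mul (a : ℕ) (t : ℝ) : e (a * t) = e t ^ a := by
  induction a with
  | zero => simp [e_zero]
  | succ n ih =>
    rw [pow_succ, ← ih, ← e_add]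
    congr 1
    push_cast
    ring

/-- Orthogonality. -/
theorem fk_sum_e_class (q : ℕ) (hq : 1 ≤ q) (m : ℤ) :
    ∑ a ∈ Finset.range q, e ((a : ℝ) * ((m : ℝ) / q)) = if (q : ℤ) ∣ m then (q : ℂ) else 0 := by
  have hq0 : (q : ℝ) ≠ 0 := by
    have : 0 < q := hq
    exact_mod_cast this.ne'
  simp only [fk_e_nat_mul]
  split_ifs with h
  · obtain ⟨s, rfl⟩ := h
    have h1 : (((q : ℤ) * s : ℤ) : ℝ) / q = (s : ℝ) := by
      push_cast
      field_simp
    rw [h1, e_int]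
    simp
  · have h1 : e ((m : ℝ) / q) ≠ 1 := by
      intro h2
      rw [e, Complex.exp_eq_one_iff] at h2
      obtain ⟨n, hn⟩ := h2
      have h3 : (((2 * Real.pi * ((m : ℝ) / q) : ℝ)) : ℂ) = ((n * (2 * Real.pi) : ℝ) : ℂ) := by
        have h4 : (n : ℂ) * (2 * Real.pi * Complex.I) =
            (((n * (2 * Real.pi) : ℝ)) : ℂ) * Complex.I := by
          push_cast
          ring
        rw [h4] at hn
        exact mul_right_cancel₀ Complex.I_ne_zero hn
      have h5 : 2 * Real.pi * ((m : ℝ) / q) = n * (2 * Real.pi) := by exact_mod_cast h3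
      have h6 : (m : ℝ) / q = n := by
        have hpi : (2 * Real.pi) ≠ 0 := by positivity
        apply mul_left_cancel₀ hpi
        rw [h5]
        ring
      rw [div_eq_iff hq0] at h6
      have h7 : m = n * q := by exact_mod_cast h6
      exact h ⟨n, by rw [h7]; ring⟩
    have h2 : e ((m : ℝ) / q) ^ q = 1 := by
      rw [← fk_e_nat_mul]
      have h3 : (q : ℝ) * ((m : ℝ) / q) = m := by field_simp
      rw [h3, e_int]
    have h3 := geom_sum_mul (e ((m : ℝ) / q)) q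
    rw [h2, sub_self] at h3
    rcases mul_eq_zero.1 h3 with h4 | h4
    · exact h4
    · exact absurd (sub_eq_zero.1 h4) h1

/-- Exact equidistribution modulo `q ≤ H`.

PROOF. `1_{q ∣ j - b} = (1/q) ∑_{a < q} e(a (j - b)/q)`; `hasSum_fw_e` at `φ = a/q` gives `0` for
`0 < a < q ≤ H` (as `nint (a/q) ≥ 1/q ≥ 1/H`) and `1` for `a = 0`. -/
theorem tsum_fw_class (H : ℕ) (hH : 2 ≤ H) (q : ℕ) (hq : 1 ≤ q) (hqH : q ≤ H) (b : ℤ) :
    ∑' j : ℤ, (if (q : ℤ) ∣ j - b then fw H j else 0) = 1 / q := by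
  have hqR : (0 : ℝ) < q := by exact_mod_cast hq
  have hq0 : (q : ℂ) ≠ 0 := by
    have : 0 < q := hq
    exact_mod_cast this.ne'
  have h1 : ∀ a ∈ Finset.range q, HasSum
      (fun j : ℤ => ((fw H j : ℂ) * e ((j : ℝ) * ((a : ℝ) / q))) * e (-((a : ℝ) * ((b : ℝ) / q))))
      (if a = 0 then 1 else 0) := by
    intro a ha
    rw [Finset.mem_range] at ha
    have h2 := (hasSum_fw_e H hH ((a : ℝ) / q)).mul_right (e (-((a : ℝ) * ((b : ℝ) / q))))
    have h3 : (((max 0 (1 - H * nint ((a : ℝ) / q)) : ℝ) : ℂ)) * e (-((a : ℝ) * ((b : ℝ) / q))) =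
        if a = 0 then 1 else 0 := by
      split_ifs with h0
      · subst h0
        simp [fk_nint_zero, e_zero]
      · have h4 := fk_inv_le_nint (Nat.pos_of_ne_zero h0) ha
        have h5 : 1 - H * nint ((a : ℝ) / q) ≤ 0 := by
          have h6 : (q : ℝ) ≤ H := by exact_mod_cast hqH
          rw [div_le_iff₀ hqR] at h4
          have h7 : 0 ≤ nint ((a : ℝ) / q) := abs_nonneg _
          nlinarith
        rw [max_eq_left h5]
        simp
    rwa [h3] at h2
  have h2 := (hasSum_sum h1).div_const (q : ℂ)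
  have h3 : (∑ a ∈ Finset.range q, (if a = 0 then (1 : ℂ) else 0)) / q = ((1 / q : ℝ) : ℂ) := by
    rw [Finset.sum_ite_eq' (Finset.range q) 0 (fun _ => (1 : ℂ)),
      if_pos (Finset.mem_range.2 hq)]
    push_cast
    rfl
  rw [h3] at h2
  have h4 : (fun j : ℤ => (∑ a ∈ Finset.range q, ((fw H j : ℂ) * e ((j : ℝ) * ((a : ℝ) / q))) *
      e (-((a : ℝ) * ((b : ℝ) / q)))) / (q : ℂ)) =
      fun j : ℤ => (((if (q : ℤ) ∣ j - b then fw H j else 0) : ℝ) : ℂ) := by
    funext j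
    have h5 : ∀ a ∈ Finset.range q, ((fw H j : ℂ) * e ((j : ℝ) * ((a : ℝ) / q))) *
        e (-((a : ℝ) * ((b : ℝ) / q))) = (fw H j : ℂ) * e ((a : ℝ) * (((j - b : ℤ) : ℝ) / q)) := by
      intro a _
      rw [mul_assoc, ← e_add]
      congr 2
      push_cast
      ring
    rw [Finset.sum_congr rfl h5, ← Finset.mul_sum, fk_sum_e_class q hq]
    split_ifs
    · field_simp
    · simp
  rw [h4] at h2
  exact (Complex.hasSum_ofReal.1 h2).tsum_eq

/-! ### Total variation -/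

theorem fk_abs_cos_sub_cos_le (x y : ℝ) : |Real.cos x - Real.cos y| ≤ |x - y| := by
  have := Real.lipschitzWith_cos.dist_le_mul x y
  simpa [Real.dist_eq] using this

theorem fk_abs_sin_sub_sin_le (x y : ℝ) : |Real.sin x - Real.sin y| ≤ |x - y| := by
  have := Real.lipschitzWith_sin.dist_le_mul x y
  simpa [Real.dist_eq] using this

theorem fk_sinc_eq_integral (x : ℝ) : Real.sinc x = ∫ t in (0 : ℝ)..1, Real.cos (t * x) := by
  rcases eq_or_ne x 0 with rfl | hx
  · simp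
  · rw [Real.sinc_of_ne_zero hx, intervalIntegral.integral_comp_mul_right _ hx]
    simp only [zero_mul, one_mul, integral_cos, Real.sin_zero, sub_zero, smul_eq_mul]
    rw [div_eq_inv_mul]

theorem fk_abs_sinc_sub_sinc_le (x y : ℝ) : |Real.sinc x - Real.sinc y| ≤ |x - y| := by
  rw [fk_sinc_eq_integral, fk_sinc_eq_integral, ← intervalIntegral.integral_sub
    (Continuous.intervalIntegrable (by fun_prop) _ _)
    (Continuous.intervalIntegrable (by fun_prop) _ _), ← Real.norm_eq_abs]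
  refine (intervalIntegral.norm_integral_le_of_norm_le_const (C := |x - y|) fun t ht => ?_).trans
    (by simp)
  rw [uIoc_of_le zero_le_one] at ht
  rw [Real.norm_eq_abs]
  refine (fk_abs_cos_sub_cos_le _ _).trans ?_
  rw [← mul_sub, abs_mul, abs_of_pos ht.1]
  exact mul_le_of_le_one_left (abs_nonneg _) ht.2

theorem fk_abs_sq_sub_sq_le {a b : ℝ} (ha : |a| ≤ 1) (hb : |b| ≤ 1) :
    |a ^ 2 - b ^ 2| ≤ 2 * |a - b| := by
  have h1 : a ^ 2 - b ^ 2 = (a + b) * (a - b) := by ring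
  rw [h1, abs_mul]
  refine mul_le_mul_of_nonneg_right ?_ (abs_nonneg _)
  exact (abs_add_le a b).trans (by linarith)

/-- The difference near the origin. -/
theorem fk_abs_fw_diff_le_near (H : ℕ) (hH : 1 ≤ H) (j : ℤ) :
    |fw H (j + 1) - fw H j| ≤ 7 / (H : ℝ) ^ 2 := by
  have hH0 : (0 : ℝ) < H := by exact_mod_cast hH
  unfold fw
  rw [← sub_div, abs_div, abs_of_pos hH0]
  have h1 := fk_abs_sq_sub_sq_le (Real.abs_sinc_le_one (Real.pi * ((j + 1 : ℤ) : ℝ) / H))
    (Real.abs_sinc_le_one (Real.pi * (j : ℝ) / H))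
  have h2 := fk_abs_sinc_sub_sinc_le (Real.pi * ((j + 1 : ℤ) : ℝ) / H) (Real.pi * (j : ℝ) / H)
  have h3 : Real.pi * ((j + 1 : ℤ) : ℝ) / H - Real.pi * (j : ℝ) / H = Real.pi / H := by
    push_cast
    ring
  rw [h3, abs_of_pos (show 0 < Real.pi / H by positivity)] at h2
  have h4 : |Real.sinc (Real.pi * ((j + 1 : ℤ) : ℝ) / H) ^ 2 -
      Real.sinc (Real.pi * (j : ℝ) / H) ^ 2| ≤ 7 / H := by
    refine h1.trans ((mul_le_mul_of_nonneg_left h2 (by norm_num)).trans ?_)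
    rw [← mul_div_assoc]
    refine div_le_div_of_nonneg_right ?_ hH0.le
    have := Real.pi_lt_d2
    linarith
  calc |Real.sinc (Real.pi * ((j + 1 : ℤ) : ℝ) / H) ^ 2 -
      Real.sinc (Real.pi * (j : ℝ) / H) ^ 2| / H ≤ 7 / H / H :=
        div_le_div_of_nonneg_right h4 hH0.le
    _ = 7 / (H : ℝ) ^ 2 := by
        field_simp

/-- The difference far from the origin. -/
theorem fk_abs_fw_diff_le_far (H : ℕ) (hH : 1 ≤ H) (i : ℕ) (hi : 1 ≤ i) :
    |fw H ((i : ℤ) + 1) - fw H i| ≤ (1 / (i : ℝ) + H / (i : ℝ) ^ 2) -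
      (1 / ((i + 1 : ℕ) : ℝ) + H / ((i + 1 : ℕ) : ℝ) ^ 2) := by
  have hH0 : (0 : ℝ) < H := by exact_mod_cast hH
  have hi0 : (0 : ℝ) < i := by exact_mod_cast hi
  have hpi3 := Real.pi_gt_three
  rw [fw_of_ne_zero H hH _ (by omega), fw_of_ne_zero H hH _ (by omega)]
  push_cast
  set s := Real.sin (Real.pi * ((i : ℝ) + 1) / H) with hs
  set s' := Real.sin (Real.pi * (i : ℝ) / H) with hs'
  have h1 : |s ^ 2 - s' ^ 2| ≤ 2 * (Real.pi / H) := by
    refine (fk_abs_sq_sub_sq_le (Real.abs_sin_le_one _) (Real.abs_sin_le_one _)).trans ?_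
    refine mul_le_mul_of_nonneg_left ?_ (by norm_num)
    refine (fk_abs_sin_sub_sin_le _ _).trans ?_
    have h3 : Real.pi * ((i : ℝ) + 1) / H - Real.pi * (i : ℝ) / H = Real.pi / H := by ring
    rw [h3, abs_of_pos (show 0 < Real.pi / H by positivity)]
  have hs1 : s' ^ 2 ≤ 1 := by
    rw [← sq_abs]
    exact pow_le_one₀ (abs_nonneg _) (Real.abs_sin_le_one _)
  have hs0 : 0 ≤ s' ^ 2 := sq_nonneg _
  have h2 : (H : ℝ) * s ^ 2 / (Real.pi ^ 2 * ((i : ℝ) + 1) ^ 2) -
      H * s' ^ 2 / (Real.pi ^ 2 * (i : ℝ) ^ 2) =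
      (H / Real.pi ^ 2) * ((s ^ 2 - s' ^ 2) / ((i : ℝ) + 1) ^ 2 -
        s' ^ 2 * (1 / (i : ℝ) ^ 2 - 1 / ((i : ℝ) + 1) ^ 2)) := by
    field_simp
    ring
  have h5 : 0 ≤ 1 / (i : ℝ) ^ 2 - 1 / ((i : ℝ) + 1) ^ 2 := by
    rw [sub_nonneg]
    apply one_div_le_one_div_of_le (by positivity)
    nlinarith
  rw [h2, abs_mul, abs_of_pos (by positivity)]
  have h6 : |(s ^ 2 - s' ^ 2) / ((i : ℝ) + 1) ^ 2 -
      s' ^ 2 * (1 / (i : ℝ) ^ 2 - 1 / ((i : ℝ) + 1) ^ 2)| ≤
      2 * (Real.pi / H) / ((i : ℝ) + 1) ^ 2 + (1 / (i : ℝ) ^ 2 - 1 / ((i : ℝ) + 1) ^ 2) := by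
    refine (abs_sub _ _).trans (add_le_add ?_ ?_)
    · rw [abs_div, abs_of_pos (by positivity : (0 : ℝ) < ((i : ℝ) + 1) ^ 2)]
      exact div_le_div_of_nonneg_right h1 (by positivity)
    · rw [abs_mul, abs_of_nonneg hs0, abs_of_nonneg h5]
      exact mul_le_of_le_one_left h5 hs1
  have h7 : (H : ℝ) / Real.pi ^ 2 * (2 * (Real.pi / H) / ((i : ℝ) + 1) ^ 2) ≤
      1 / (i : ℝ) - 1 / ((i : ℝ) + 1) := by
    have h8 : (H : ℝ) / Real.pi ^ 2 * (2 * (Real.pi / H) / ((i : ℝ) + 1) ^ 2) =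
        (2 / Real.pi) * (1 / ((i : ℝ) + 1) ^ 2) := by
      field_simp
    have h9 : (2 / Real.pi) ≤ 1 := by
      rw [div_le_one (by positivity)]
      linarith
    have h10 : 1 / ((i : ℝ) + 1) ^ 2 ≤ 1 / (i : ℝ) - 1 / ((i : ℝ) + 1) := by
      have h11 : 1 / (i : ℝ) - 1 / ((i : ℝ) + 1) = 1 / ((i : ℝ) * ((i : ℝ) + 1)) := by
        field_simp
        ring
      rw [h11]
      apply one_div_le_one_div_of_le (by positivity)
      nlinarith
    rw [h8]
    exact (mul_le_of_le_one_left (by positivity) h9).trans h10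
  have h12 : (H : ℝ) / Real.pi ^ 2 * (1 / (i : ℝ) ^ 2 - 1 / ((i : ℝ) + 1) ^ 2) ≤
      H * (1 / (i : ℝ) ^ 2 - 1 / ((i : ℝ) + 1) ^ 2) := by
    refine mul_le_mul_of_nonneg_right ?_ h5
    exact div_le_self hH0.le (by nlinarith)
  calc (H : ℝ) / Real.pi ^ 2 * |(s ^ 2 - s' ^ 2) / ((i : ℝ) + 1) ^ 2 -
      s' ^ 2 * (1 / (i : ℝ) ^ 2 - 1 / ((i : ℝ) + 1) ^ 2)|
      ≤ (H : ℝ) / Real.pi ^ 2 * (2 * (Real.pi / H) / ((i : ℝ) + 1) ^ 2 +
        (1 / (i : ℝ) ^ 2 - 1 / ((i : ℝ) + 1) ^ 2)) :=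
        mul_le_mul_of_nonneg_left h6 (by positivity)
    _ ≤ (1 / (i : ℝ) - 1 / ((i : ℝ) + 1)) +
        H * (1 / (i : ℝ) ^ 2 - 1 / ((i : ℝ) + 1) ^ 2) := by
        rw [mul_add]
        exact add_le_add h7 h12
    _ = (1 / (i : ℝ) + H / (i : ℝ) ^ 2) - (1 / ((i : ℝ) + 1) + H / ((i : ℝ) + 1) ^ 2) := by
        ring

theorem fk_sum_range_fw_tv (H : ℕ) (hH : 1 ≤ H) (n : ℕ) :
    ∑ i ∈ Finset.range n, |fw H ((i : ℤ) + 1) - fw H i| ≤ 9 / H := by
  have hH0 : (0 : ℝ) < H := by exact_mod_cast hH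
  -- the near part
  have h1 : ∀ n : ℕ, ∑ i ∈ Finset.range n, |fw H ((i : ℤ) + 1) - fw H i| ≤
      n * (7 / (H : ℝ) ^ 2) := by
    intro n
    refine (Finset.sum_le_sum fun (i : ℕ) _ => fk_abs_fw_diff_le_near H hH (i : ℤ)).trans
      (le_of_eq ?_)
    rw [Finset.sum_const, Finset.card_range, nsmul_eq_mul]
  have h2 : ∀ n : ℕ, ∑ i ∈ Finset.range (H + n), |fw H ((i : ℤ) + 1) - fw H i| ≤
      7 / H + ((1 / (H : ℝ) + H / (H : ℝ) ^ 2) -
        (1 / ((H + n : ℕ) : ℝ) + H / ((H + n : ℕ) : ℝ) ^ 2)) := by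
    intro n
    induction n with
    | zero =>
      rw [add_zero, sub_self, add_zero]
      refine (h1 H).trans (le_of_eq ?_)
      field_simp
    | succ n ih =>
      rw [← add_assoc, Finset.sum_range_succ]
      have h3 := fk_abs_fw_diff_le_far H hH (H + n) (by omega)
      linarith
  have h3 : ∑ i ∈ Finset.range n, |fw H ((i : ℤ) + 1) - fw H i| ≤
      ∑ i ∈ Finset.range (H + n), |fw H ((i : ℤ) + 1) - fw H i| :=
    Finset.sum_le_sum_of_subset_of_nonneg
      (Finset.range_subset_range.2 (Nat.le_add_left n H)) fun i _ _ => abs_nonneg _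
  have h4 : (0 : ℝ) ≤ 1 / ((H + n : ℕ) : ℝ) + H / ((H + n : ℕ) : ℝ) ^ 2 := by positivity
  have h5 : (H : ℝ) / (H : ℝ) ^ 2 = 1 / H := by field_simp
  have h6 : (9 : ℝ) / H = 7 / H + (1 / H + 1 / H) := by ring
  have h7 := h2 n
  rw [h5] at h7
  linarith

theorem fk_hasSum_fw_tv_nat (H : ℕ) (hH : 1 ≤ H) :
    Summable (fun i : ℕ => |fw H ((i : ℤ) + 1) - fw H i|) ∧
      ∑' i : ℕ, |fw H ((i : ℤ) + 1) - fw H i| ≤ 9 / H :=
  ⟨summable_of_sum_range_le (fun _ => abs_nonneg _) (fk_sum_range_fw_tv H hH),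
    Real.tsum_le_of_sum_range_le (fun _ => abs_nonneg _) (fk_sum_range_fw_tv H hH)⟩

theorem fk_fw_tv_neg (H : ℕ) (i : ℕ) :
    |fw H (-((i : ℤ) + 1) + 1) - fw H (-((i : ℤ) + 1))| = |fw H ((i : ℤ) + 1) - fw H i| := by
  have h1 : -((i : ℤ) + 1) + 1 = -(i : ℤ) := by ring
  rw [h1, fw_neg, fw_neg, abs_sub_comm]

/-- Total variation.

PROOF. With `s(x) = sinc²(π x)`: `|s'(x)| ≤ 4` and `|s'(x)| ≤ 2/x²` for `x ≠ 0` (crude); mean
value theorem: `|fw H (j+1) - fw H j| ≤ (1/H²) sup_{[j/H, (j+1)/H]} |s'|`; the terms with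
`|j| ≤ H + 1` contribute at most `(2H + 4) · 4/H²`, the others at most
`2 ∑_{i ≥ H} (1/H²) 2 H²/i²`. -/
theorem summable_fw_tv (H : ℕ) (hH : 2 ≤ H) :
    Summable (fun j : ℤ => |fw H (j + 1) - fw H j|) := by
  have h := (fk_hasSum_fw_tv_nat H (by omega)).1
  refine Summable.of_nat_of_neg_add_one (f := fun j : ℤ => |fw H (j + 1) - fw H j|) h ?_
  simpa only [fk_fw_tv_neg] using h

theorem tsum_fw_tv (H : ℕ) (hH : 2 ≤ H) : ∑' j : ℤ, |fw H (j + 1) - fw H j| ≤ 40 / H := by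
  have hH0 : (0 : ℝ) < H := by
    have : 0 < H := by omega
    exact_mod_cast this
  obtain ⟨h, h2⟩ := fk_hasSum_fw_tv_nat H (by omega)
  have h3 : Summable fun i : ℕ => |fw H (-((i : ℤ) + 1) + 1) - fw H (-((i : ℤ) + 1))| := by
    simpa only [fk_fw_tv_neg] using h
  rw [tsum_of_nat_of_neg_add_one (f := fun j : ℤ => |fw H (j + 1) - fw H j|) h h3]
  simp only [fk_fw_tv_neg]
  have h4 : (40 : ℝ) / H = 9 / H + 9 / H + 22 / H := by ring
  have h5 : (0 : ℝ) ≤ 22 / H := by positivity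
  linarith

end Vale.Agent.P042.UB
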