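import Vale.Agent.Lib.P042.UB.Fejer.Kernel

set_option autoImplicit false

namespace Vale.Agent.P042.UB

/-- restriction to a residue class -/
noncomputable def fbInd (q : ℕ) (b : ℤ) (f : ℤ → ℝ) (j : ℤ) : ℝ :=
  if (q : ℤ) ∣ j - b then f j else 0

theorem fbInd_summable (q : ℕ) (b : ℤ) {f : ℤ → ℝ} (hf : Summable f) (h0 : ∀ j, 0 ≤ f j) :
    Summable (fbInd q b f) := by
  refine Summable.of_nonneg_of_le (fun j => ?_) (fun j => ?_) hf
  · unfold fbInd
    split_ifs
    · exact h0 j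
    · exact le_rfl
  · unfold fbInd
    split_ifs
    · exact le_rfl
    · exact h0 j

/-- shifting by a multiple of `q` -/
theorem fbInd_shift {q : ℕ} {b a : ℤ} (ha : (q : ℤ) ∣ a) (f : ℤ → ℝ) :
    ∑' j, fbInd q b f j = ∑' j, fbInd q b (fun j => f (j + a)) j := by
  rw [← (Equiv.addRight a).tsum_eq (fbInd q b f)]
  refine tsum_congr fun j => ?_
  change fbInd q b f (j + a) = _
  unfold fbInd
  have h : (q : ℤ) ∣ j + a - b ↔ (q : ℤ) ∣ j - b := by
    rw [show j + a - b = (j - b) + a by ring]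
    exact (dvd_add_left ha)
  simp only [h]

/-- the number of `l < q M` in a residue class -/
theorem fb_count (q M : ℕ) (hq : 1 ≤ q) (v : ℤ) :
    (((Finset.range (q * M)).filter (fun l : ℕ => (q : ℤ) ∣ v - l)).card : ℤ) = M := by
  have hq0 : (0 : ℤ) < q := by exact_mod_cast hq
  have h1 := Int.Ico_filter_modEq_card (a := 0) (b := ((q * M : ℕ) : ℤ)) hq0 v
  have h2 : ((Finset.range (q * M)).filter (fun l : ℕ => (q : ℤ) ∣ v - l)).card =
      ((Finset.Ico (0 : ℤ) ((q * M : ℕ) : ℤ)).filter (fun x => x ≡ v [ZMOD q])).card := by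
    refine Finset.card_bij' (fun l _ => (l : ℤ)) (fun x _ => x.toNat) ?_ ?_ ?_ ?_
    · intro l hl
      rw [Finset.mem_filter, Finset.mem_range] at hl
      rw [Finset.mem_filter, Finset.mem_Ico]
      refine ⟨⟨by positivity, by exact_mod_cast hl.1⟩, ?_⟩
      exact (Int.modEq_iff_dvd).2 hl.2
    · intro x hx
      rw [Finset.mem_filter, Finset.mem_Ico] at hx
      obtain ⟨⟨hx1, hx2⟩, hx3⟩ := hx
      rw [Finset.mem_filter, Finset.mem_range]
      refine ⟨by omega, ?_⟩
      rw [Int.toNat_of_nonneg hx1]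
      exact (Int.modEq_iff_dvd).1 hx3
    · intro l _
      exact Int.toNat_natCast l
    · intro x hx
      rw [Finset.mem_filter, Finset.mem_Ico] at hx
      exact Int.toNat_of_nonneg hx.1.1
  rw [h2, h1]
  have h3 : ((((q * M : ℕ) : ℤ) : ℚ) - (v : ℚ)) / ((q : ℤ) : ℚ) =
      ((0 : ℤ) - (v : ℚ)) / ((q : ℤ) : ℚ) + ((M : ℤ) : ℚ) := by
    have hq1 : ((q : ℤ) : ℚ) ≠ 0 := by exact_mod_cast hq0.ne'
    push_cast at hq1 ⊢
    field_simp
    ring
  rw [h3, Int.ceil_add_intCast]
  have : (0 : ℤ) ≤ M := Int.natCast_nonneg M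
  simp

/-- summing over `q M` consecutive shifts -/
theorem fb_shifts (q M : ℕ) (hq : 1 ≤ q) (b : ℤ) {D : ℤ → ℝ} (hD : Summable D)
    (h0 : ∀ j, 0 ≤ D j) :
    ∑ l ∈ Finset.range (q * M), ∑' j, fbInd q b (fun j => D (j + l)) j = M * ∑' j, D j := by
  have h1 : ∀ l ∈ Finset.range (q * M), ∑' j, fbInd q b (fun j => D (j + l)) j =
      ∑' j, (if (q : ℤ) ∣ (j - b) - l then D j else 0) := by
    intro l _
    rw [← (Equiv.addRight (l : ℤ)).tsum_eq (fun j => if (q : ℤ) ∣ (j - b) - l then D j else 0)]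
    refine tsum_congr fun j => ?_
    change _ = if (q : ℤ) ∣ (j + l - b) - l then D (j + l) else 0
    rw [show j + (l : ℤ) - b - l = j - b by ring]
    rfl
  have hs : ∀ l ∈ Finset.range (q * M),
      Summable (fun j : ℤ => if (q : ℤ) ∣ (j - b) - l then D j else 0) := by
    intro l _
    refine Summable.of_nonneg_of_le (fun j => ?_) (fun j => ?_) hD
    · split_ifs
      · exact h0 j
      · exact le_rfl
    · split_ifs
      · exact le_rfl
      · exact h0 j
  rw [Finset.sum_congr rfl h1, ← Summable.tsum_finsetSum hs, ← tsum_mul_left]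
  refine tsum_congr fun j => ?_
  rw [← Finset.sum_filter, Finset.sum_const, nsmul_eq_mul]
  congr 1
  exact_mod_cast fb_count q M hq (j - b)

/-- telescoping -/
theorem fb_telescope (F : ℤ → ℝ) (j : ℤ) {n m : ℕ} (h : n ≤ m) :
    F (j + n) ≤ F j + ∑ l ∈ Finset.range m, |F (j + l + 1) - F (j + l)| := by
  have h1 : F (j + n) ≤ F j + ∑ l ∈ Finset.range n, |F (j + l + 1) - F (j + l)| := by
    clear h
    induction n with
    | zero => simp
    | succ n ih =>
      rw [Finset.sum_range_succ]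
      have h2 := le_abs_self (F (j + n + 1) - F (j + n))
      have h3 : j + ((n + 1 : ℕ) : ℤ) = j + n + 1 := by push_cast; ring
      rw [h3]
      linarith
  refine h1.trans ?_
  gcongr

/-- If `g : ℤ → [0,1]` has average at most `τ` on all progressions of length `B` and difference
`Λ` then its weighted average on residue classes mod `q ∣ Λ` is at most `τ (1 + small)`.

PROOF. For a class `b' mod Λ` cut `{j ≡ b' mod Λ}` into runs of `B` consecutive terms. On a run
with hull `I` (the interval of integers from its first to its last element),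
`∑_{j ∈ run} fw H j g j ≤ (max_{run} fw) τ B ≤ τ (∑_{j ∈ run} fw H j + B · TV_I)`, where
`TV_I = ∑_{j, j+1 ∈ I} |fw H (j+1) - fw H j|` (each value of the run is `≥ max - TV_I`). The hulls
of the runs of one class are disjoint, so summing over the runs of the class gives
`τ (∑_{j ≡ b' mod Λ} fw H j + B · 40/H)` by `tsum_fw_tv`. Sum over the `Λ/q` classes
`b' mod Λ` with `b' ≡ b mod q` and use `tsum_fw_class`: total `≤ τ (1/q + (Λ/q) B 40/H)`. -/
theorem fw_block (H : ℕ) (hH : 2 ≤ H) (g : ℤ → ℝ) (hg0 : ∀ j, 0 ≤ g j) (hg1 : ∀ j, g j ≤ 1)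
    (q Λ B : ℕ) (hq : 1 ≤ q) (hqH : q ≤ H) (hqΛ : q ∣ Λ) (hΛ : 1 ≤ Λ) (hB : 1 ≤ B) (τ : ℝ)
    (hτ0 : 0 ≤ τ) (hτ : ∀ b : ℤ, ∑ i ∈ Finset.Icc (1 : ℤ) B, g (b + Λ * i) ≤ τ * B) (b : ℤ) :
    (q : ℝ) * ∑' j : ℤ, (if (q : ℤ) ∣ j - b then fw H j * g j else 0) ≤
      τ * (1 + 40 * Λ * B / H) := by
  have hq0 : (0 : ℝ) < q := by exact_mod_cast hq
  have hB0 : (0 : ℝ) < B := by exact_mod_cast hB
  have hH0 : (0 : ℝ) < H := by
    have : 0 < H := by omega
    exact_mod_cast this
  have hF0 := fw_nonneg H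
  have hFs : Summable (fw H) := summable_fw H (by omega)
  have hDs := summable_fw_tv H hH
  set D : ℤ → ℝ := fun j => |fw H (j + 1) - fw H j| with hD
  have hD0 : ∀ j, 0 ≤ D j := fun j => abs_nonneg _
  have hFg0 : ∀ j, 0 ≤ fw H j * g j := fun j => mul_nonneg (hF0 j) (hg0 j)
  have hFgs : Summable (fun j => fw H j * g j) :=
    Summable.of_nonneg_of_le hFg0 (fun j => mul_le_of_le_one_right (hF0 j) (hg1 j)) hFs
  have hshift : ∀ (f : ℤ → ℝ) (a : ℤ), Summable f → Summable (fun j => f (j + a)) :=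
    fun f a hf => (Equiv.addRight a).summable_iff.2 hf
  set S : ℝ := ∑' j : ℤ, (if (q : ℤ) ∣ j - b then fw H j * g j else 0) with hS
  obtain ⟨M, hM⟩ : ∃ M : ℕ, Λ * B = q * M := by
    obtain ⟨t, ht⟩ := hqΛ
    exact ⟨t * B, by rw [ht]; ring⟩
  -- Step 1 and 2
  have h1 : (B : ℝ) * S = ∑' j : ℤ, fbInd q b
      (fun j => ∑ i ∈ Finset.Icc (1 : ℤ) B, fw H (j + Λ * i) * g (j + Λ * i)) j := by
    have e1 : ∀ i ∈ Finset.Icc (1 : ℤ) B,
        S = ∑' j, fbInd q b (fun j => fw H (j + Λ * i) * g (j + Λ * i)) j := by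
      intro i _
      have hdvd : (q : ℤ) ∣ Λ * i := by
        have : (q : ℤ) ∣ (Λ : ℤ) := by exact_mod_cast hqΛ
        exact this.mul_right i
      exact fbInd_shift hdvd (fun j => fw H j * g j)
    have e2 : (B : ℝ) * S = ∑ i ∈ Finset.Icc (1 : ℤ) B,
        ∑' j, fbInd q b (fun j => fw H (j + Λ * i) * g (j + Λ * i)) j := by
      rw [← Finset.sum_congr rfl e1, Finset.sum_const, nsmul_eq_mul]
      congr 1
      simp
    rw [e2, ← Summable.tsum_finsetSum]
    · refine tsum_congr fun j => ?_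
      unfold fbInd
      split_ifs <;> simp
    · intro i _
      exact fbInd_summable q b (hshift (fun j => fw H j * g j) (Λ * i) hFgs) (fun j => hFg0 _)
  -- Step 3
  have h2 : ∀ j, ∑ i ∈ Finset.Icc (1 : ℤ) B, fw H (j + Λ * i) * g (j + Λ * i) ≤
      (τ * B) * (fw H j + ∑ l ∈ Finset.range (q * M), D (j + l)) := by
    intro j
    have e1 : ∀ i ∈ Finset.Icc (1 : ℤ) B, fw H (j + Λ * i) * g (j + Λ * i) ≤
        (fw H j + ∑ l ∈ Finset.range (q * M), D (j + l)) * g (j + Λ * i) := by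
      intro i hi
      rw [Finset.mem_Icc] at hi
      refine mul_le_mul_of_nonneg_right ?_ (hg0 _)
      obtain ⟨i', rfl⟩ := Int.eq_ofNat_of_zero_le (by omega : 0 ≤ i)
      have e2 : Λ * i' ≤ q * M := by
        rw [← hM]
        exact Nat.mul_le_mul_left _ (by exact_mod_cast hi.2)
      have e3 := fb_telescope (fw H) j e2
      push_cast at e3
      exact e3
    refine (Finset.sum_le_sum e1).trans ?_
    rw [← Finset.mul_sum, mul_comm]
    refine mul_le_mul_of_nonneg_right (hτ j) ?_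
    exact add_nonneg (hF0 j) (Finset.sum_nonneg fun l _ => hD0 _)
  -- Step 4
  have h3 : (B : ℝ) * S ≤ (τ * B) * (1 / q + M * (40 / H)) := by
    have hsum1 : Summable (fbInd q b (fw H)) := fbInd_summable q b hFs hF0
    have hsum2 : ∀ l ∈ Finset.range (q * M), Summable (fbInd q b (fun j => D (j + (l : ℤ)))) :=
      fun l _ => fbInd_summable q b (hshift D l hDs) (fun j => hD0 _)
    have hsum3 : Summable (fun j => ∑ l ∈ Finset.range (q * M),
        fbInd q b (fun j => D (j + (l : ℤ))) j) := summable_sum hsum2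
    have e1 : ∀ j, fbInd q b
        (fun j => ∑ i ∈ Finset.Icc (1 : ℤ) B, fw H (j + Λ * i) * g (j + Λ * i)) j ≤
        (τ * B) * (fbInd q b (fw H) j + ∑ l ∈ Finset.range (q * M),
          fbInd q b (fun j => D (j + (l : ℤ))) j) := by
      intro j
      unfold fbInd
      split_ifs
      · exact h2 j
      · simp
    have e2 : Summable (fun j => (τ * B) * (fbInd q b (fw H) j + ∑ l ∈ Finset.range (q * M),
          fbInd q b (fun j => D (j + (l : ℤ))) j)) := (hsum1.add hsum3).mul_left _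
    have e3 : Summable (fun j => fbInd q b
        (fun j => ∑ i ∈ Finset.Icc (1 : ℤ) B, fw H (j + Λ * i) * g (j + Λ * i)) j) := by
      refine Summable.of_nonneg_of_le (fun j => ?_) e1 e2
      unfold fbInd
      split_ifs
      · exact Finset.sum_nonneg fun i _ => hFg0 _
      · exact le_rfl
    rw [h1]
    refine (Summable.tsum_le_tsum e1 e3 e2).trans (le_of_eq_of_le (tsum_mul_left) ?_)
    refine mul_le_mul_of_nonneg_left ?_ (by positivity)
    rw [hsum1.tsum_add hsum3, Summable.tsum_finsetSum hsum2, fb_shifts q M hq b hDs hD0]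
    have e4 : ∑' j, fbInd q b (fw H) j = 1 / q := tsum_fw_class H hH q hq hqH b
    rw [e4]
    have e5 : ∑' j, D j ≤ 40 / H := tsum_fw_tv H hH
    have e6 : (0 : ℝ) ≤ M := Nat.cast_nonneg M
    exact add_le_add le_rfl (mul_le_mul_of_nonneg_left e5 e6)
  have h4 : S ≤ τ * (1 / q + M * (40 / H)) := by
    have e1 : (B : ℝ) * S ≤ B * (τ * (1 / q + M * (40 / H))) := by
      calc (B : ℝ) * S ≤ (τ * B) * (1 / q + M * (40 / H)) := h3
        _ = B * (τ * (1 / q + M * (40 / H))) := by ring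
    exact le_of_mul_le_mul_left e1 hB0
  have hM' : (Λ : ℝ) * B = q * M := by exact_mod_cast hM
  calc (q : ℝ) * S ≤ q * (τ * (1 / q + M * (40 / H))) := mul_le_mul_of_nonneg_left h4 hq0.le
    _ = τ * (1 + 40 * (q * M) / H) := by
        field_simp
    _ = τ * (1 + 40 * Λ * B / H) := by
        rw [← hM']
        ring

end Vale.Agent.P042.UB
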