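import Vale.Agent.Lib.P042.UB.Fejer.Kernel

set_option autoImplicit false

namespace Vale.Agent.P042.UB

open MeasureTheory

/-! ### General Parseval on `[0,1]` -/

theorem parseval_general (G : ℝ → ℂ) (hG : Continuous G) :
    HasSum (fun x : ℤ => ‖∫ θ in (0 : ℝ)..1, e ((x : ℝ) * θ) * G θ‖ ^ 2)
      (∫ θ in (0 : ℝ)..1, ‖G θ‖ ^ 2) := by
  have h01 : (0 : ℝ) < 1 := one_pos
  have hL2 : MemLp G 2 (volume.restrict (Set.Ioc (0 : ℝ) 1)) := by
    obtain ⟨C, hC⟩ := (isCompact_Icc (a := (0 : ℝ)) (b := 1)).exists_bound_of_continuousOn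
      hG.continuousOn
    refine MemLp.of_bound hG.aestronglyMeasurable C ?_
    refine (ae_restrict_iff' measurableSet_Ioc).2 (Filter.Eventually.of_forall fun x hx => ?_)
    exact hC x (Set.Ioc_subset_Icc_self hx)
  have h := hasSum_sq_fourierCoeffOn h01 hL2
  rw [← (Equiv.neg ℤ).hasSum_iff] at h
  convert h using 1
  · funext x
    simp only [Function.comp_apply, Equiv.neg_apply]
    rw [fourierCoeffOn_eq_integral]
    congr 2
    rw [sub_zero, div_one, one_smul]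
    refine intervalIntegral.integral_congr (fun θ _ => ?_)
    simp only [smul_eq_mul]
    congr 1
    rw [neg_neg, fourier_coe_apply, e]
    congr 1
    push_cast
    ring
  · simp

theorem integral_e (m : ℤ) :
    ∫ θ in (0 : ℝ)..1, e ((m : ℝ) * θ) = if m = 0 then 1 else 0 := by
  by_cases hm : m = 0
  · subst hm
    simp [e_zero]
  · rw [if_neg hm]
    have hc : (((2 * Real.pi * m : ℝ) : ℂ) * Complex.I) ≠ 0 := by
      have : (2 * Real.pi * m : ℝ) ≠ 0 := by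
        have := Real.pi_pos
        have hm' : (m : ℝ) ≠ 0 := by exact_mod_cast hm
        positivity
      exact mul_ne_zero (by exact_mod_cast this) Complex.I_ne_zero
    have h := integral_exp_mul_complex (a := 0) (b := 1) hc
    have h2 : (fun θ : ℝ => e ((m : ℝ) * θ)) =
        fun θ : ℝ => Complex.exp ((((2 * Real.pi * m : ℝ) : ℂ) * Complex.I) * (θ : ℂ)) := by
      funext θ
      rw [e]
      congr 1
      push_cast
      ring
    rw [h2, h]
    have h3 : Complex.exp ((((2 * Real.pi * m : ℝ) : ℂ) * Complex.I) * ((1 : ℝ) : ℂ)) = 1 := by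
      have := e_int m
      rw [e] at this
      simpa using this
    rw [h3]
    simp

theorem continuous_fhat (N : ℕ) (f : ℤ → ℝ) : Continuous (fhat N f) := by
  unfold fhat
  refine continuous_finsetSum _ (fun n _ => ?_)
  exact continuous_const.mul (continuous_e.comp (by fun_prop))

theorem e_mul_fhat (N : ℕ) (f : ℤ → ℝ) (x : ℤ) (θ : ℝ) :
    e ((x : ℝ) * θ) * fhat N f θ =
      ∑ n ∈ Finset.Icc (1 : ℤ) N, (f n : ℂ) * e (((x - n : ℤ) : ℝ) * θ) := by
  unfold fhat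
  rw [Finset.mul_sum]
  refine Finset.sum_congr rfl (fun n _ => ?_)
  have : (((x - n : ℤ) : ℝ) * θ) = (x : ℝ) * θ + -((n : ℝ) * θ) := by
    push_cast
    ring
  rw [this, e_add]
  ring

/-- Parseval for trigonometric polynomials. -/
theorem integral_fhat_sq (N : ℕ) (f : ℤ → ℝ) :
    ∫ θ in (0 : ℝ)..1, ‖fhat N f θ‖ ^ 2 = ∑ n ∈ Finset.Icc (1 : ℤ) N, f n ^ 2 := by
  have h := parseval_general (fhat N f) (continuous_fhat N f)
  have h2 : ∀ x : ℤ, ∫ θ in (0 : ℝ)..1, e ((x : ℝ) * θ) * fhat N f θ =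
      if x ∈ Finset.Icc (1 : ℤ) N then (f x : ℂ) else 0 := by
    intro x
    simp only [e_mul_fhat]
    rw [intervalIntegral.integral_finsetSum]
    · simp only [intervalIntegral.integral_const_mul, integral_e, sub_eq_zero, mul_ite, mul_one,
        mul_zero]
      rw [Finset.sum_ite_eq]
    · intro n _
      exact (continuous_const.mul (continuous_e.comp (by fun_prop))).intervalIntegrable _ _
  simp only [h2] at h
  have h3 : HasSum (fun x : ℤ => ‖(if x ∈ Finset.Icc (1 : ℤ) N then (f x : ℂ) else 0)‖ ^ 2)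
      (∑ x ∈ Finset.Icc (1 : ℤ) N, ‖(if x ∈ Finset.Icc (1 : ℤ) N then (f x : ℂ) else 0)‖ ^ 2) := by
    refine hasSum_sum_of_ne_finset_zero (fun x hx => ?_)
    rw [if_neg hx]
    simp
  rw [h.unique h3]
  refine Finset.sum_congr rfl (fun x hx => ?_)
  rw [if_pos hx, Complex.norm_real, Real.norm_eq_abs, sq_abs]

/-! ### The triangle function -/

/-- The triangle function. -/
noncomputable def tri (H : ℕ) (t : ℝ) : ℝ := max 0 (1 - H * nint t)

theorem tri_nonneg (H : ℕ) (t : ℝ) : 0 ≤ tri H t := le_max_left _ _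

theorem continuous_tri (H : ℕ) (hH : 2 ≤ H) : Continuous (tri H) := by
  have h1 : Continuous (fun t : ℝ => ∑' j : ℤ, (fw H j : ℂ) * e ((j : ℝ) * t)) := by
    refine continuous_tsum (u := fw H) (fun j => ?_) (summable_fw H (by omega)) (fun j t => ?_)
    · exact continuous_const.mul (continuous_e.comp (by fun_prop))
    · rw [norm_mul, norm_e, mul_one, Complex.norm_real, Real.norm_eq_abs,
        abs_of_nonneg (fw_nonneg H j)]
  have h2 : (fun t : ℝ => ∑' j : ℤ, (fw H j : ℂ) * e ((j : ℝ) * t)) =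
      fun t => ((tri H t : ℝ) : ℂ) := by
    funext t
    exact (hasSum_fw_e H hH t).tsum_eq
  rw [h2] at h1
  have h3 := Complex.continuous_re.comp h1
  simpa [Function.comp_def] using h3

theorem hasSum_coeff_tri (H D : ℕ) (hH : 2 ≤ H) (φ : ℝ) (m : ℤ) :
    HasSum (fun j : ℤ => (fw H j : ℂ) * e (-((j : ℝ) * φ)) * (if m + D * j = 0 then 1 else 0))
      (∫ θ in (0 : ℝ)..1, e ((m : ℝ) * θ) * (tri H (D * θ - φ) : ℂ)) := by
  have h := intervalIntegral.hasSum_integral_of_dominated_convergence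
    (μ := volume) (a := (0 : ℝ)) (b := 1)
    (F := fun (j : ℤ) (θ : ℝ) => e ((m : ℝ) * θ) * ((fw H j : ℂ) * e ((j : ℝ) * (D * θ - φ))))
    (f := fun θ => e ((m : ℝ) * θ) * (tri H (D * θ - φ) : ℂ))
    (fun j _ => fw H j) ?_ ?_ ?_ ?_ ?_
  · have hfun : (fun j : ℤ => (fw H j : ℂ) * e (-((j : ℝ) * φ)) *
        (if m + D * j = 0 then 1 else 0)) = fun j : ℤ => ∫ θ in (0 : ℝ)..1,
          e ((m : ℝ) * θ) * ((fw H j : ℂ) * e ((j : ℝ) * (D * θ - φ))) := by
      funext j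
      have h1 : ∀ θ : ℝ, e ((m : ℝ) * θ) * ((fw H j : ℂ) * e ((j : ℝ) * (D * θ - φ))) =
          ((fw H j : ℂ) * e (-((j : ℝ) * φ))) * e (((m + D * j : ℤ) : ℝ) * θ) := by
        intro θ
        have e1 : (j : ℝ) * (D * θ - φ) = -((j : ℝ) * φ) + (D * j : ℝ) * θ := by ring
        have e2 : (((m + D * j : ℤ) : ℝ) * θ) = (m : ℝ) * θ + (D * j : ℝ) * θ := by
          push_cast
          ring
        rw [e1, e2, e_add, e_add]
        ring
      simp only [h1]
      rw [intervalIntegral.integral_const_mul, integral_e]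
    rw [hfun]
    exact h
  · intro j
    refine Continuous.aestronglyMeasurable ?_
    exact (continuous_e.comp (by fun_prop)).mul
      (continuous_const.mul (continuous_e.comp (by fun_prop)))
  · intro j
    refine Filter.Eventually.of_forall (fun θ _ => ?_)
    rw [norm_mul, norm_mul, norm_e, norm_e, mul_one, one_mul, Complex.norm_real,
      Real.norm_eq_abs, abs_of_nonneg (fw_nonneg H j)]
  · exact Filter.Eventually.of_forall (fun θ _ => summable_fw H (by omega))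
  · exact intervalIntegrable_const
  · refine Filter.Eventually.of_forall (fun θ _ => ?_)
    exact (hasSum_fw_e H hH (D * θ - φ)).mul_left _

theorem coeff_Gs (N : ℕ) (f : ℤ → ℝ) (hf : ∀ x, x ∉ Finset.Icc (1 : ℤ) N → f x = 0)
    (H D : ℕ) (hH : 2 ≤ H) (φ : ℝ) (x : ℤ) :
    ∫ θ in (0 : ℝ)..1, e ((x : ℝ) * θ) * (fhat N f θ * (tri H (D * θ - φ) : ℂ)) =
      Gs H f D x φ := by
  have h1 : ∀ θ : ℝ, e ((x : ℝ) * θ) * (fhat N f θ * (tri H (D * θ - φ) : ℂ)) =
      ∑ n ∈ Finset.Icc (1 : ℤ) N,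
        (f n : ℂ) * (e (((x - n : ℤ) : ℝ) * θ) * (tri H (D * θ - φ) : ℂ)) := by
    intro θ
    rw [← mul_assoc, e_mul_fhat, Finset.sum_mul]
    refine Finset.sum_congr rfl (fun n _ => ?_)
    ring
  simp only [h1]
  have hct : Continuous (fun θ : ℝ => ((tri H (D * θ - φ) : ℝ) : ℂ)) :=
    Complex.continuous_ofReal.comp ((continuous_tri H hH).comp (by fun_prop))
  rw [intervalIntegral.integral_finsetSum]
  swap
  · intro n _
    exact (continuous_const.mul ((continuous_e.comp (by fun_prop)).mul hct)).intervalIntegrable _ _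
  simp only [intervalIntegral.integral_const_mul]
  have h2 := hasSum_sum (s := Finset.Icc (1 : ℤ) N)
    (f := fun (n : ℤ) (j : ℤ) => (f n : ℂ) * ((fw H j : ℂ) * e (-((j : ℝ) * φ)) *
      (if (x - n) + D * j = 0 then 1 else 0)))
    (a := fun n => (f n : ℂ) * ∫ θ in (0 : ℝ)..1,
      e (((x - n : ℤ) : ℝ) * θ) * (tri H (D * θ - φ) : ℂ))
    (fun n _ => (hasSum_coeff_tri H D hH φ (x - n)).mul_left _)
  rw [← h2.tsum_eq, Gs]
  refine tsum_congr (fun j => ?_)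
  have h3 : ∀ n : ℤ, ((f n : ℂ) * ((fw H j : ℂ) * e (-((j : ℝ) * φ)) *
      (if (x - n) + D * j = 0 then 1 else 0))) =
      if x + D * j = n then ((fw H j * f (x + D * j) : ℝ) : ℂ) * e (-((j : ℝ) * φ)) else 0 := by
    intro n
    by_cases h : x + D * j = n
    · rw [if_pos h, if_pos (by omega), h]
      push_cast
      ring
    · rw [if_neg h, if_neg (by omega)]
      ring
  simp only [h3]
  rw [Finset.sum_ite_eq]
  split_ifs with h
  · rfl
  · rw [hf _ h]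
    simp

/-- Plancherel for `x ↦ Gs H f D x φ`. -/
theorem hasSum_Gs_sq (N : ℕ) (f : ℤ → ℝ) (hf : ∀ x, x ∉ Finset.Icc (1 : ℤ) N → f x = 0)
    (H D : ℕ) (hH : 2 ≤ H) (_hD : 1 ≤ D) (φ : ℝ) :
    HasSum (fun x : ℤ => ‖Gs H f D x φ‖ ^ 2)
      (∫ θ in (0 : ℝ)..1, ‖fhat N f θ‖ ^ 2 * (max 0 (1 - H * nint (D * θ - φ))) ^ 2) := by
  have hct : Continuous (fun θ : ℝ => ((tri H (D * θ - φ) : ℝ) : ℂ)) :=
    Complex.continuous_ofReal.comp ((continuous_tri H hH).comp (by fun_prop))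
  have h := parseval_general (fun θ => fhat N f θ * (tri H (D * θ - φ) : ℂ))
    ((continuous_fhat N f).mul hct)
  simp only [coeff_Gs N f hf H D hH φ] at h
  convert h using 1
  refine intervalIntegral.integral_congr (fun θ _ => ?_)
  simp only [norm_mul, Complex.norm_real, Real.norm_eq_abs, mul_pow, sq_abs, tri]


/-! ### Periodicity and the nearest integer -/

theorem nint_add_int (t : ℝ) (n : ℤ) : nint (t + n) = nint t := by
  unfold nint
  rw [round_add_intCast]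
  push_cast
  congr 1
  ring

theorem nint_le_abs (t : ℝ) : nint t ≤ |t| := by
  have := round_le t 0
  simpa [nint] using this

theorem tri_add_int (H : ℕ) (t : ℝ) (n : ℤ) : tri H (t + n) = tri H t := by
  unfold tri
  rw [nint_add_int]

theorem fhat_periodic (N : ℕ) (f : ℤ → ℝ) : Function.Periodic (fhat N f) 1 := by
  intro θ
  unfold fhat
  refine Finset.sum_congr rfl (fun n _ => ?_)
  have : -((n : ℝ) * (θ + 1)) = -((n : ℝ) * θ) + ((-n : ℤ) : ℝ) := by
    push_cast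
    ring
  rw [this, e_add_int]

/-! ### Arcs -/

/-- The weight appearing in the energy inequality. -/
noncomputable def wgt (H D q₂ : ℕ) (θ : ℝ) : ℝ :=
  4 * ∑ a ∈ (Finset.range q₂).filter (fun a => a.Coprime q₂), tri H (D * θ - (a : ℝ) / q₂) ^ 2

theorem wgt_nonneg (H D q₂ : ℕ) (θ : ℝ) : 0 ≤ wgt H D q₂ θ := by
  unfold wgt
  have : 0 ≤ ∑ a ∈ (Finset.range q₂).filter (fun a => a.Coprime q₂),
      tri H (D * θ - (a : ℝ) / q₂) ^ 2 := Finset.sum_nonneg (fun a _ => sq_nonneg _)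
  linarith

theorem continuous_wgt (H D q₂ : ℕ) (hH : 2 ≤ H) : Continuous (wgt H D q₂) := by
  unfold wgt
  refine continuous_const.mul (continuous_finsetSum _ (fun a _ => ?_))
  exact ((continuous_tri H hH).comp (by fun_prop)).pow 2

theorem wgt_periodic (H D q₂ : ℕ) : Function.Periodic (wgt H D q₂) 1 := by
  intro θ
  unfold wgt
  congr 1
  refine Finset.sum_congr rfl (fun a _ => ?_)
  have : (D : ℝ) * (θ + 1) - (a : ℝ) / q₂ = (D * θ - (a : ℝ) / q₂) + ((D : ℤ) : ℝ) := by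
    push_cast
    ring
  rw [this, tri_add_int]

theorem one_le_wgt (H D q₁ q₂ a : ℕ) (r β : ℝ) (hD : 1 ≤ D) (hq₂ : 1 ≤ q₂)
    (hcop : q₂.Coprime D) (hr1 : 2 * H * D * r ≤ 1) (hq₁ : q₁ ∣ D)
    (ha : a.Coprime (q₁ * q₂)) (hβ : |β| ≤ r) :
    1 ≤ wgt H D q₂ ((a : ℝ) / ((q₁ * q₂ : ℕ) : ℝ) + β) := by
  obtain ⟨m, hm⟩ := hq₁
  have hq₁0 : 0 < q₁ := Nat.pos_of_ne_zero (by rintro rfl; omega)
  have hq₂0 : (0 : ℝ) < q₂ := by exact_mod_cast hq₂
  have hq₁0' : (0 : ℝ) < q₁ := by exact_mod_cast hq₁0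
  have hmcop : m.Coprime q₂ := by
    have h1 : (q₁ * m).Coprime q₂ := by rw [← hm]; exact hcop.symm
    exact Nat.Coprime.coprime_mul_left h1
  have hacop : a.Coprime q₂ := Nat.Coprime.coprime_mul_left_right ha
  have hmem : (m * a) % q₂ ∈ (Finset.range q₂).filter (fun a => a.Coprime q₂) := by
    rw [Finset.mem_filter, Finset.mem_range]
    refine ⟨Nat.mod_lt _ hq₂, ?_⟩
    have h1 : (m * a).Coprime q₂ := Nat.Coprime.mul_left hmcop hacop
    rw [Nat.Coprime, ← Nat.gcd_rec, Nat.gcd_comm]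
    exact h1
  have hsplit : (D : ℝ) * ((a : ℝ) / ((q₁ * q₂ : ℕ) : ℝ) + β) - (((m * a) % q₂ : ℕ) : ℝ) / q₂ =
      D * β + ((((m * a) / q₂ : ℕ) : ℤ) : ℝ) := by
    have h1 : ((m : ℝ) * a) = q₂ * (((m * a) / q₂ : ℕ) : ℝ) + (((m * a) % q₂ : ℕ) : ℝ) := by
      exact_mod_cast (Nat.div_add_mod (m * a) q₂).symm
    have h2 : (D : ℝ) = q₁ * m := by exact_mod_cast hm
    rw [Int.cast_natCast]
    push_cast
    rw [mul_add, h2]
    have h3 : (q₁ : ℝ) * m * (a / (q₁ * q₂)) = (m * a) / q₂ := by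
      field_simp
    rw [h3, h1]
    field_simp
    ring
  have htri : (1 / 2 : ℝ) ≤
      tri H (D * ((a : ℝ) / ((q₁ * q₂ : ℕ) : ℝ) + β) - (((m * a) % q₂ : ℕ) : ℝ) / q₂) := by
    rw [hsplit, tri_add_int]
    refine le_trans ?_ (le_max_right _ _)
    have h1 : nint (D * β) ≤ D * r := by
      refine (nint_le_abs _).trans ?_
      rw [abs_mul, Nat.abs_cast]
      exact mul_le_mul_of_nonneg_left hβ (Nat.cast_nonneg _)
    have h2 : (H : ℝ) * nint (D * β) ≤ H * (D * r) :=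
      mul_le_mul_of_nonneg_left h1 (Nat.cast_nonneg _)
    nlinarith
  have hle : tri H (D * ((a : ℝ) / ((q₁ * q₂ : ℕ) : ℝ) + β) - (((m * a) % q₂ : ℕ) : ℝ) / q₂) ^ 2 ≤
      ∑ a' ∈ (Finset.range q₂).filter (fun a => a.Coprime q₂),
        tri H (D * ((a : ℝ) / ((q₁ * q₂ : ℕ) : ℝ) + β) - (a' : ℝ) / q₂) ^ 2 :=
    Finset.single_le_sum (f := fun a' : ℕ =>
      tri H (D * ((a : ℝ) / ((q₁ * q₂ : ℕ) : ℝ) + β) - (a' : ℝ) / q₂) ^ 2)
      (fun a' _ => sq_nonneg _) hmem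
  unfold wgt
  nlinarith

theorem frac_sep (a b q q' K : ℕ) (hq : 1 ≤ q) (hq' : 1 ≤ q') (hqK : q ≤ K) (hqK' : q' ≤ K)
    (hne : (a : ℤ) * q' ≠ b * q) (r : ℝ) (hr2 : 2 * r * (K : ℝ) ^ 2 < 1) :
    2 * r < |(a : ℝ) / q - (b : ℝ) / q'| := by
  have hq0 : (0 : ℝ) < q := by exact_mod_cast hq
  have hq0' : (0 : ℝ) < q' := by exact_mod_cast hq'
  have hK0 : (0 : ℝ) < K := by exact_mod_cast (lt_of_lt_of_le hq hqK)
  have h1 : (1 : ℝ) ≤ |(a : ℝ) * q' - b * q| := by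
    have h2 : (1 : ℤ) ≤ |(a : ℤ) * q' - b * q| := Int.one_le_abs (sub_ne_zero.2 hne)
    exact_mod_cast h2
  have h3 : (a : ℝ) / q - (b : ℝ) / q' = ((a : ℝ) * q' - b * q) / (q * q') := by
    field_simp
  rw [h3, abs_div, abs_of_pos (mul_pos hq0 hq0'), lt_div_iff₀ (mul_pos hq0 hq0')]
  refine lt_of_lt_of_le ?_ h1
  have h4 : (q : ℝ) * q' ≤ K ^ 2 := by
    rw [sq]
    exact mul_le_mul (by exact_mod_cast hqK) (by exact_mod_cast hqK') hq0'.le hK0.le
  by_cases hr : 0 ≤ r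
  · have : 2 * r * (q * q') ≤ 2 * r * K ^ 2 := mul_le_mul_of_nonneg_left h4 (by linarith)
    linarith
  · push Not at hr
    have : 2 * r * (q * q') < 0 := mul_neg_of_neg_of_pos (by linarith) (mul_pos hq0 hq0')
    linarith

/-- Energies on arcs through smoothed sums along progressions of difference `D`. -/
theorem energy_le (N : ℕ) (f : ℤ → ℝ) (hf : ∀ x, x ∉ Finset.Icc (1 : ℤ) N → f x = 0)
    (H D K q₂ : ℕ) (r : ℝ) (hH : 2 ≤ H) (hD : 1 ≤ D) (hK : 1 ≤ K) (hq₂ : 1 ≤ q₂)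
    (hcop : q₂.Coprime D) (hr : 0 < r) (hr1 : 2 * H * D * r ≤ 1) (hr2 : 2 * r * (K : ℝ) ^ 2 < 1) :
    ∑ q₁ ∈ D.divisors.filter (fun q₁ => q₁ * q₂ ≤ K), arcEnergy N f r (q₁ * q₂) ≤
      4 * ∑ a ∈ (Finset.range q₂).filter (fun a => a.Coprime q₂),
        ∑' x : ℤ, ‖Gs H f D x ((a : ℝ) / q₂)‖ ^ 2 := by
  have hFc := continuous_fhat N f
  have hWc := continuous_wgt H D q₂ hH
  set g : ℝ → ℝ := fun θ => ‖fhat N f θ‖ ^ 2 * wgt H D q₂ θ with hg
  have hgc : Continuous g := (hFc.norm.pow 2).mul hWc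
  have hg0 : ∀ θ, 0 ≤ g θ := fun θ => mul_nonneg (sq_nonneg _) (wgt_nonneg H D q₂ θ)
  have hgp : Function.Periodic g 1 := by
    intro θ
    simp only [hg, fhat_periodic N f θ, wgt_periodic H D q₂ θ]
  -- the right hand side
  have hR : 4 * ∑ a ∈ (Finset.range q₂).filter (fun a => a.Coprime q₂),
        ∑' x : ℤ, ‖Gs H f D x ((a : ℝ) / q₂)‖ ^ 2 = ∫ θ in (0 : ℝ)..1, g θ := by
    have h1 : ∀ θ, g θ = 4 * ∑ a ∈ (Finset.range q₂).filter (fun a => a.Coprime q₂),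
        ‖fhat N f θ‖ ^ 2 * (max 0 (1 - H * nint (D * θ - (a : ℝ) / q₂))) ^ 2 := by
      intro θ
      simp only [hg, wgt, tri]
      rw [← Finset.mul_sum]
      ring
    simp only [h1]
    rw [intervalIntegral.integral_const_mul, intervalIntegral.integral_finsetSum]
    · congr 1
      refine Finset.sum_congr rfl (fun a _ => ?_)
      exact (hasSum_Gs_sq N f hf H D hH hD ((a : ℝ) / q₂)).tsum_eq
    · intro a _
      refine Continuous.intervalIntegrable ?_ _ _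
      exact (hFc.norm.pow 2).mul (((continuous_tri H hH).comp
        (by fun_prop : Continuous fun θ : ℝ => (D : ℝ) * θ - (a : ℝ) / q₂)).pow 2)
  rw [hR]
  -- the left hand side as a sum over pairs
  set S : Finset (Σ _ : ℕ, ℕ) := (D.divisors.filter (fun q₁ => q₁ * q₂ ≤ K)).sigma
    (fun q₁ => (Finset.range (q₁ * q₂)).filter (fun a => a.Coprime (q₁ * q₂))) with hS
  have hL : ∑ q₁ ∈ D.divisors.filter (fun q₁ => q₁ * q₂ ≤ K), arcEnergy N f r (q₁ * q₂) =
      ∑ p ∈ S, ∫ β in (-r)..r, ‖fhat N f ((p.2 : ℝ) / ((p.1 * q₂ : ℕ) : ℝ) + β)‖ ^ 2 := by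
    rw [hS, Finset.sum_sigma]
    rfl
  rw [hL]
  have hSmem : ∀ p ∈ S, p.1 ∣ D ∧ 1 ≤ p.1 * q₂ ∧ p.1 * q₂ ≤ K ∧ p.2 < p.1 * q₂ ∧
      p.2.Coprime (p.1 * q₂) := by
    intro p hp
    rw [hS, Finset.mem_sigma, Finset.mem_filter, Finset.mem_filter, Nat.mem_divisors,
      Finset.mem_range] at hp
    obtain ⟨⟨⟨h1, h2⟩, h3⟩, h4, h5⟩ := hp
    exact ⟨h1, by omega, h3, h4, h5⟩
  set c : (Σ _ : ℕ, ℕ) → ℝ := fun p => (p.2 : ℝ) / ((p.1 * q₂ : ℕ) : ℝ) with hc
  have h1 : ∀ p ∈ S, ∫ β in (-r)..r, ‖fhat N f ((p.2 : ℝ) / ((p.1 * q₂ : ℕ) : ℝ) + β)‖ ^ 2 ≤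
      ∫ θ in Set.Ioc (c p - r) (c p + r), g θ := by
    intro p hp
    obtain ⟨hd, hq1, hqK, hlt, hcp⟩ := hSmem p hp
    have h2 : ∫ β in (-r)..r, g (c p + β) = ∫ θ in Set.Ioc (c p - r) (c p + r), g θ := by
      rw [intervalIntegral.integral_comp_add_left (fun θ => g θ) (c p),
        intervalIntegral.integral_of_le (by linarith)]
      rfl
    rw [← h2]
    refine intervalIntegral.integral_mono_on (by linarith) ?_ ?_ ?_
    · exact ((hFc.comp (by fun_prop)).norm.pow 2).intervalIntegrable _ _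
    · exact (hgc.comp (by fun_prop)).intervalIntegrable _ _
    · intro β hβ
      have h3 := one_le_wgt H D p.1 q₂ p.2 r β hD hq₂ hcop hr1 hd hcp
        (abs_le.2 ⟨hβ.1, hβ.2⟩)
      simp only [hg, hc]
      exact le_mul_of_one_le_right (sq_nonneg _) h3
  refine (Finset.sum_le_sum h1).trans ?_
  -- disjointness
  have hdisj : Set.Pairwise (↑S : Set (Σ _ : ℕ, ℕ))
      (Function.onFun Disjoint fun p => Set.Ioc (c p - r) (c p + r)) := by
    intro p hp p' hp' hne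
    rw [Finset.mem_coe] at hp hp'
    obtain ⟨hd, hq1, hqK, hlt, hcp⟩ := hSmem p hp
    obtain ⟨hd', hq1', hqK', hlt', hcp'⟩ := hSmem p' hp'
    have hneq : (p.2 : ℤ) * ((p'.1 * q₂ : ℕ) : ℤ) ≠ p'.2 * ((p.1 * q₂ : ℕ) : ℤ) := by
      intro h
      have h' : p.2 * (p'.1 * q₂) = p'.2 * (p.1 * q₂) := by exact_mod_cast h
      have h3 : p.1 * q₂ ∣ p'.1 * q₂ := by
        have : p.1 * q₂ ∣ p.2 * (p'.1 * q₂) := by rw [h']; exact Dvd.intro_left _ rfl
        exact hcp.symm.dvd_of_dvd_mul_left this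
      have h4 : p'.1 * q₂ ∣ p.1 * q₂ := by
        have : p'.1 * q₂ ∣ p'.2 * (p.1 * q₂) := by rw [← h']; exact Dvd.intro_left _ rfl
        exact hcp'.symm.dvd_of_dvd_mul_left this
      have h5 : p.1 * q₂ = p'.1 * q₂ := Nat.dvd_antisymm h3 h4
      have h6 : p.1 = p'.1 := Nat.eq_of_mul_eq_mul_right hq₂ h5
      have h7 : p.2 = p'.2 := by
        rw [h5] at h'
        exact Nat.eq_of_mul_eq_mul_right hq1' h'
      apply hne
      obtain ⟨x, y⟩ := p
      obtain ⟨x', y'⟩ := p'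
      simp only at h6 h7
      rw [h6, h7]
    have hsep := frac_sep p.2 p'.2 (p.1 * q₂) (p'.1 * q₂) K hq1 hq1' hqK hqK' hneq r hr2
    rw [Function.onFun, Set.disjoint_left]
    intro θ h3 h4
    have h5 : |c p - c p'| < 2 * r := by
      rw [abs_lt]
      constructor <;> linarith [h3.1, h3.2, h4.1, h4.2]
    exact absurd h5 (not_lt.2 hsep.le)
  have hK0 : (0 : ℝ) < K := by exact_mod_cast hK
  have hsub : (⋃ p ∈ S, Set.Ioc (c p - r) (c p + r)) ⊆ Set.Ioc (-r) (-r + 1) := by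
    intro θ hθ
    simp only [Set.mem_iUnion] at hθ
    obtain ⟨p, hp, hθ1, hθ2⟩ := hθ
    obtain ⟨hd, hq1, hqK, hlt, hcp⟩ := hSmem p hp
    have hq0 : (0 : ℝ) < ((p.1 * q₂ : ℕ) : ℝ) := by exact_mod_cast hq1
    have h3 : 0 ≤ c p := div_nonneg (Nat.cast_nonneg _) hq0.le
    have h4 : c p ≤ 1 - 1 / K := by
      have h5 : (p.2 : ℝ) ≤ ((p.1 * q₂ : ℕ) : ℝ) - 1 := by
        have : (p.2 : ℝ) + 1 ≤ ((p.1 * q₂ : ℕ) : ℝ) := by exact_mod_cast hlt
        linarith
      have h6 : c p ≤ (((p.1 * q₂ : ℕ) : ℝ) - 1) / ((p.1 * q₂ : ℕ) : ℝ) :=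
        div_le_div_of_nonneg_right h5 hq0.le
      have h7 : (((p.1 * q₂ : ℕ) : ℝ) - 1) / ((p.1 * q₂ : ℕ) : ℝ) =
          1 - 1 / ((p.1 * q₂ : ℕ) : ℝ) := by
        rw [sub_div, div_self hq0.ne']
      have h8 : (1 : ℝ) / K ≤ 1 / ((p.1 * q₂ : ℕ) : ℝ) :=
        one_div_le_one_div_of_le hq0 (by exact_mod_cast hqK)
      linarith
    have h5 : 2 * r ≤ 1 / K := by
      rw [le_div_iff₀ hK0]
      have : (1 : ℝ) ≤ K := by exact_mod_cast hK
      nlinarith [mul_pos hr hK0]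
    constructor <;> linarith
  have hint : IntegrableOn g (Set.Ioc (-r) (-r + 1)) :=
    (hgc.integrableOn_Icc).mono_set Set.Ioc_subset_Icc_self
  rw [← MeasureTheory.integral_biUnion_finset S (fun p _ => measurableSet_Ioc) hdisj
    (fun p hp => (hgc.integrableOn_Icc).mono_set Set.Ioc_subset_Icc_self)]
  calc ∫ θ in ⋃ p ∈ S, Set.Ioc (c p - r) (c p + r), g θ
      ≤ ∫ θ in Set.Ioc (-r) (-r + 1), g θ :=
        setIntegral_mono_set hint (Filter.Eventually.of_forall hg0)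
          (Filter.Eventually.of_forall hsub)
    _ = ∫ θ in (-r)..(-r + 1), g θ := by rw [intervalIntegral.integral_of_le (by linarith)]
    _ = ∫ θ in (0 : ℝ)..(0 + 1), g θ := hgp.intervalIntegral_add_eq _ _
    _ = ∫ θ in (0 : ℝ)..1, g θ := by rw [zero_add]

end Vale.Agent.P042.UB
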